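import Vale.Agent.P216.E2L.Fin
import Vale.Agent.P216.D907.Chain
import Vale.Agent.P216.H774D.Pwr
import Vale.Agent.P216.H754B.Rev

/-!
# `OpN`: the operators at different levels agree up to homotopy
-/

set_option linter.all false

open Set BoundedContinuousFunction

namespace Vale.Agent.P216.E2L

open Sl PS Vale.Agent.P216.MV337 Vale.Agent.P216.H774D Vale.Agent.P216.H754B

section

variable {k : Type} [Field k] {E : Type} [PseudoMetricSpace E]

/-- A family of operators, Lipschitz in the level. -/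
theorem opN_of {X : ℝ → Set E} (hX : Monotone X) {θ : ℝ → E → E} {m L : ℝ} (hm : 0 ≤ m)
    (hL : 0 ≤ L) (h1 : ∀ s > 0, ∀ t ≥ s, MapsTo (θ t) (X s) (X (m * t)))
    (h2 : ∀ s > 0, ∀ t ≥ s, ∀ w ∈ X s, ∀ w' ∈ X s, dist (θ t w) (θ t w') ≤ dist w w')
    (h3 : ∀ s > 0, ∀ t ≥ s, ∀ t' ≥ t, ∀ w ∈ X s, dist (θ t w) (θ t' w) ≤ L * (t' - t)) :
    OpN X θ m k := by
  intro s hs t hst n f hf
  obtain ⟨r, hr, hf⟩ := hf
  obtain ⟨N, hN⟩ := exists_nat_gt (L * (t - s) / (r / 2))
  have hN0 : (0 : ℝ) < N := lt_of_le_of_lt (div_nonneg (mul_nonneg hL (by linarith)) (by linarith)) hN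
  have hN' : L * (t - s) < N * (r / 2) := (div_lt_iff₀ (by linarith)).1 hN
  have hi : ∀ i : ℕ, i ≤ N → s ≤ s + i * ((t - s) / N) ∧ s + i * ((t - s) / N) ≤ t := by
    intro i hi
    have h0 : 0 ≤ (t - s) / N := div_nonneg (by linarith) hN0.le
    have h4 : (i : ℝ) * ((t - s) / N) ≤ N * ((t - s) / N) :=
      mul_le_mul_of_nonneg_right (by exact_mod_cast hi) h0
    have h5 : (N : ℝ) * ((t - s) / N) = t - s := by field_simp
    have h6 : 0 ≤ (i : ℝ) * ((t - s) / N) := mul_nonneg (Nat.cast_nonneg i) h0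
    exact ⟨by linarith, by linarith⟩
  obtain ⟨g, hg0, hg⟩ := D907.chain_contig (N := N) (Zs := X s) (Y := X (m * t)) (δ := r / 2)
    (r := r) (n := n) (f := f) (fun i => θ (s + i * ((t - s) / N)))
    (fun i hiN w hw => hX (mul_le_mul_of_nonneg_left (hi i hiN).2 hm)
      (h1 s hs _ (hi i hiN).1 hw))
    (fun i hiN w hw w' hw' hd => by
      have e1 := h2 s hs _ (hi i hiN).1 w hw w' hw'
      refine ⟨by linarith, fun hlt => ?_⟩
      have hi1 := hi (i + 1) hlt
      have e2 := h3 s hs _ (hi i hiN).1 (s + ((i + 1 : ℕ) : ℝ) * ((t - s) / N))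
        (by
          have h0 : 0 ≤ (t - s) / N := div_nonneg (by linarith) hN0.le
          push_cast
          nlinarith) w' hw'
      have e3 : s + ((i + 1 : ℕ) : ℝ) * ((t - s) / N) - (s + i * ((t - s) / N)) = (t - s) / N := by
        push_cast; ring
      rw [e3] at e2
      have e4 : L * ((t - s) / N) < r / 2 := by
        rw [← mul_div_assoc, div_lt_iff₀ hN0]
        linarith
      exact lt_of_le_of_lt (dist_triangle _ (θ (s + i * ((t - s) / N)) w') _) (by linarith)) hf
  refine ⟨g, hg0, r / 2, by linarith, fun l hl hs' => ?_⟩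
  have e := hg l hl hs'
  have e5 : s + (N : ℝ) * ((t - s) / N) = t := by field_simp; ring
  have e6 : s + ((0 : ℕ) : ℝ) * ((t - s) / N) = s := by rw [Nat.cast_zero, zero_mul, add_zero]
  rw [e5, e6] at e
  exact e

end

section

variable {M : Type} [MetricSpace M] [CompactSpace M] {s t t' : ℝ} {w w' : ℝ →ᵇ M}

theorem dist_pwr_pwr (hs : 0 ≤ s) (hw : w ∈ FL M s) (hst : s ≤ t) (htt : t ≤ t') (m : ℕ) :
    dist (pwr t m w) (pwr t' m w) ≤ m * (t' - t) := by
  have ht : 0 ≤ t := hs.trans hst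
  have ht' : 0 ≤ t' := ht.trans htt
  have hwt : w ∈ FL M t := FL_mono hst hw
  have hwt' : w ∈ FL M t' := FL_mono (hst.trans htt) hw
  induction m with
  | zero =>
    rw [Nat.cast_zero, zero_mul]
    show dist (cst (w 0)) (cst (w 0)) ≤ 0
    rw [dist_self]
  | succ m ih =>
    have hm0 : (0 : ℝ) ≤ m := Nat.cast_nonneg m
    refine (dist_le (mul_nonneg (Nat.cast_nonneg _) (by linarith))).2 fun u => ?_
    have a1 := (pwr_mem ht hwt m).1
    have a2 := (pwr_mem ht' hwt' m).1
    have j1 := pwr_join ht hwt m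
    have j2 := pwr_join ht' hwt' m
    have c1 : pwr t (m + 1) w u = catf (m * t) (pwr t m w) w u := cat_apply a1 hw.1 j1 u
    have c2 : pwr t' (m + 1) w u = catf (m * t') (pwr t' m w) w u := cat_apply a2 hw.1 j2 u
    have hmt : (m : ℝ) * t ≤ m * t' := mul_le_mul_of_nonneg_left htt hm0
    have hle : (m : ℝ) * (t' - t) ≤ ((m + 1 : ℕ) : ℝ) * (t' - t) := by
      push_cast
      nlinarith
    refine le_trans ?_ hle
    rw [c1, c2]
    rcases le_total u (m * t) with h1 | h1
    · rw [catf_left h1, catf_left (h1.trans hmt)]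
      exact (dist_coe_le_dist u).trans ih
    rcases le_total u (m * t') with h2 | h2
    · rw [catf_right j1 h1, catf_left h2]
      have e1 := hw.1 (u - m * t) 0
      have e2 := a2 (m * t') u
      rw [j2] at e2
      have e3 : |u - m * t - 0| = u - m * t := by rw [sub_zero, abs_of_nonneg (by linarith)]
      have e4 : |m * t' - u| = m * t' - u := abs_of_nonneg (by linarith)
      rw [e3] at e1
      rw [e4] at e2
      calc dist (w (u - m * t)) (pwr t' m w u) ≤ dist (w (u - m * t)) (w 0) +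
            dist (w 0) (pwr t' m w u) := dist_triangle _ _ _
        _ ≤ (u - m * t) + (m * t' - u) := add_le_add e1 e2
        _ = m * (t' - t) := by ring
    · rw [catf_right j1 h1, catf_right j2 h2]
      refine (hw.1 _ _).trans ?_
      have e1 : u - m * t - (u - m * t') = m * (t' - t) := by ring
      rw [e1, abs_of_nonneg (mul_nonneg hm0 (by linarith))]

variable {k : Type} [Field k]

/-- **Power maps.** -/
theorem opN_pwr (m : ℕ) : OpN (FL M) (fun t => pwr t m) (m : ℝ) k := by
  refine opN_of (fun a b h => FL_mono h) (L := m) (Nat.cast_nonneg m) (Nat.cast_nonneg m)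
    (fun s hs t ht w hw => pwr_mem (hs.le.trans ht) (FL_mono ht hw) m)
    (fun s hs t ht w hw w' hw' => dist_pwr (hs.le.trans ht) (FL_mono ht hw) (FL_mono ht hw') m)
    fun s hs t ht t' ht' w hw => dist_pwr_pwr hs.le hw ht ht' m

/-- **The reversal.** -/
theorem opN_rv : OpN (FL M) (fun t => rv t) 1 k := by
  refine opN_of (fun a b h => FL_mono h) (L := 1) zero_le_one zero_le_one
    (fun s hs t ht w hw => ?_) (fun s hs t ht w hw w' hw' => dist_rv_le t w w')
    fun s hs t ht t' ht' w hw => ?_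
  · rw [one_mul]
    exact rv_mem_FL hw ht
  · rw [one_mul]
    refine (dist_rv_rv hw.1 t t').trans ?_
    rw [abs_sub_comm, abs_of_nonneg (by linarith)]

end

end Vale.Agent.P216.E2L
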