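import Vale.Agent.P216.E2L.Ext

/-!
# The interface between the fibre step and the output of the Leray zigzag

`Fib`: everything the zigzag needs to know about the fibres of `π : E → M` over the base set `A`,
at all levels `X t`; losses are arbitrary (`∀ t, ∃ T ≥ t`).
`BaseH`: the base.
-/

set_option linter.all false

open Set

namespace Vale.Agent.P216.E2L

open Sl PS

variable {k : Type} [Field k] {M E : Type} [PseudoMetricSpace M] [PseudoMetricSpace E]

/-- The base: `H^p(A)` is zero for `¬ Bs p` and of rank at most one for `Bs p`. -/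
structure BaseH (k : Type) [Field k] (A : Set M) (Bs : ℕ → Prop) : Prop where
  ex : ∀ p, ¬ Bs p → ∀ c : List M → k, Nrm c → CocL A p c → ExL A p c
  rk : ∀ p, Bs p → RkA k A p

/-- **The fibre step**: `X t` the total space at the level `t`, `Ob t` its fibre over `x₀`,
`θ s : X s → X (m s)` an operator over the base, `Fs q`: the fibre cohomology of degree `q` is a
line (it dies if `¬ Fs q`), `w q` the eigenvalue of `θ` on it. -/
structure Fib (π : E → M) (A : Set M) (X Ob : ℝ → Set E) (x₀ : M) (θ : ℝ → E → E) (m : ℝ)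
    (k : Type) [Field k] (Fs : ℕ → Prop) (w : ℕ → k) : Prop where
  mono : Monotone X
  lip : ∀ w w', dist (π w) (π w') ≤ dist w w'
  mem : x₀ ∈ A
  ob : ∀ t w, w ∈ Ob t ↔ w ∈ X t ∧ π w = x₀
  ne : ∀ t > 0, ∀ x ∈ A, ∃ w ∈ X t, π w = x
  one : 1 ≤ m
  op : ∀ s > 0, OpE π (X s) (X (m * s)) (θ s)
  f0 : Fs 0
  w0 : w 0 = 1
  zero : ∀ t > 0, ∃ T ≥ t, NullB π A (X T) (X t) k 0
  null : ∀ q, ¬ Fs q → ∀ t > 0, ∃ T ≥ t, NullB π A (X T) (X t) k q
  line : ∀ q, Fs q → q ≠ 0 → ∃ t₀ > 0, ∀ t ≥ t₀, ∃ T ≥ t, ∃ v : M → List E → k,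
    LineB π A (X T) (X t) q v ∧ ∀ s > 0, m * s ≤ t → OpV π A (X s) q v (θ s) (w q)
  fam : ∀ q, q ≠ 0 → ∀ t > 0, ∃ T ≥ t, ∀ y : List E → k, CocL (Ob T) q y →
    ∃ V : M → List E → k, FamV π A (X t) q V ∧ ExL (Ob t) q fun l => V x₀ l - y l

end Vale.Agent.P216.E2L
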