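import Vale.Agent.P216.H787.Cls
import Vale.Agent.P216.H754.Norm

/-!
# Double lists

Bicochains `F xs ws`, `xs` a list in the base `M`, `ws` a list in the total space `E`, the two
coboundaries `dM`, `dE`, the Alexander-Whitney map `aw`, and the submodules `Zs` of the bicochains
which vanish on the small double lists over `A`.
-/

set_option linter.all false

open Set

namespace Vale.Agent.P216.E2L

open Sl PS

variable {k : Type} [Field k] {M E : Type}

/-- Bicochains. -/
abbrev Bi (k M E : Type) := List M → List E → k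

/-- The coboundary in the base variable. -/
noncomputable def dM : Bi k M E →ₗ[k] Bi k M E where
  toFun F := fun xs ws => dl (fun ys => F ys ws) xs
  map_add' F G := by funext xs ws; exact Sl.dl_add _ _ _
  map_smul' a F := by funext xs ws; exact dl_mul_left _ _ _

/-- The coboundary in the fibre variable. -/
noncomputable def dE : Bi k M E →ₗ[k] Bi k M E where
  toFun F := fun xs ws => dl (F xs) ws
  map_add' F G := by funext xs ws; exact Sl.dl_add _ _ _
  map_smul' a F := by funext xs ws; exact dl_mul_left _ _ _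

theorem dM_apply (F : Bi k M E) (xs : List M) (ws : List E) :
    dM F xs ws = dl (fun ys => F ys ws) xs := rfl

theorem dE_apply (F : Bi k M E) (xs : List M) (ws : List E) : dE F xs ws = dl (F xs) ws := rfl

theorem dM_cons (F : Bi k M E) (x : M) (xs : List M) (ws : List E) :
    dM F (x :: xs) ws = F xs ws - dM (fun ys ws => F (x :: ys) ws) xs ws := dl_cons _ _ _

theorem dM_dM (F : Bi k M E) : dM (dM F) = 0 := by
  funext xs ws
  exact dl_dl (fun ys => F ys ws) xs

theorem dE_dE (F : Bi k M E) : dE (dE F) = 0 := by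
  funext xs ws
  exact dl_dl (F xs) ws

theorem dl_sub (f g : List E → k) (l : List E) :
    dl (fun l' => f l' - g l') l = dl f l - dl g l := by
  have e : (fun l' => f l' - g l') = fun l' => f l' + (-1) * g l' := by funext l'; ring
  rw [e, Sl.dl_add, dl_mul_left]
  ring

theorem dM_dE_apply (xs : List M) : ∀ (F : Bi k M E) (ws : List E),
    dM (dE F) xs ws = dE (dM F) xs ws := by
  induction xs with
  | nil =>
    intro F ws
    rw [dM_apply, dl_nil, dE_apply]
    have e : dM F [] = fun _ => (0 : k) := by funext w; rw [dM_apply, dl_nil]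
    rw [e, dl_zero_fun]
  | cons x xs ih =>
    intro F ws
    rw [dM_cons]
    have h := ih (fun ys ws => F (x :: ys) ws) ws
    have e1 : dM (fun ys ws => dE F (x :: ys) ws) xs ws =
        dM (dE (fun ys ws => F (x :: ys) ws)) xs ws := rfl
    have e2 : dM F (x :: xs) = fun w => F xs w - dM (fun ys ws => F (x :: ys) ws) xs w := by
      funext w; exact dM_cons F x xs w
    rw [e1, h, dE_apply, dE_apply, dE_apply, e2, dl_sub]

theorem dM_dE (F : Bi k M E) : dM (dE F) = dE (dM F) := by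
  funext xs ws
  exact dM_dE_apply xs F ws

/-! ### The Alexander-Whitney map -/

variable (π : E → M)

/-- The Alexander-Whitney map. -/
def aw (p : ℕ) : Bi k M E →ₗ[k] (List E → k) where
  toFun F := fun l => F ((l.take (p + 1)).map π) (l.drop p)
  map_add' F G := rfl
  map_smul' a F := rfl

theorem aw_apply (p : ℕ) (F : Bi k M E) (l : List E) :
    aw π p F l = F ((l.take (p + 1)).map π) (l.drop p) := rfl

/-- The Leibniz rule. -/
theorem dl_aw (p : ℕ) : ∀ (F : Bi k M E) (l : List E), p + 2 ≤ l.length →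
    dl (aw π p F) l = aw π (p + 1) (dM F) l + (-1 : k) ^ p * aw π p (dE F) l := by
  induction p with
  | zero =>
    intro F l hl
    rcases l with _ | ⟨w, l⟩
    · simp at hl
    rcases l with _ | ⟨w', l⟩
    · simp at hl
    rw [dl_cons]
    have e1 : aw π 0 F (w' :: l) = F [π w'] (w' :: l) := rfl
    have e2 : aw π (0 + 1) (dM F) (w :: w' :: l) = dM F [π w, π w'] (w' :: l) := rfl
    have e3 : aw π 0 (dE F) (w :: w' :: l) = dE F [π w] (w :: w' :: l) := rfl
    have e4 : dl (fun l' => aw π 0 F (w :: l')) (w' :: l) =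
        dl (fun l' => F [π w] (w :: l')) (w' :: l) := rfl
    rw [e1, e2, e3, e4, dM_cons, dM_apply, dl_one, dE_apply, dl_cons (F [π w]), pow_zero]
    ring
  | succ p ih =>
    intro F l hl
    rcases l with _ | ⟨w, l⟩
    · simp at hl
    rw [dl_cons]
    have hl' : p + 2 ≤ l.length := by simpa using hl
    have h := ih (fun ys ws => F (π w :: ys) ws) l hl'
    have e1 : dl (fun l' => aw π (p + 1) F (w :: l')) l =
        dl (aw π p (fun ys ws => F (π w :: ys) ws)) l := rfl
    have e2 : aw π (p + 1 + 1) (dM F) (w :: l) =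
        aw π (p + 1) F l - aw π (p + 1) (dM (fun ys ws => F (π w :: ys) ws)) l :=
      dM_cons F (π w) _ _
    have e3 : aw π (p + 1) (dE F) (w :: l) = aw π p (dE (fun ys ws => F (π w :: ys) ws)) l := rfl
    rw [e1, h, e2, e3, pow_succ]
    ring

/-! ### Normalised bicochains -/

/-- Normalised in the base variable. -/
def NrmM (F : Bi k M E) : Prop := ∀ ws, Nrm fun xs => F xs ws

theorem NrmM.dM {F : Bi k M E} (h : NrmM F) : NrmM (dM F) := fun ws => (h ws).dl

theorem NrmM.dE {F : Bi k M E} (h : NrmM F) : NrmM (dE F) := fun ws xs hx => by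
  have e : F xs = fun _ => (0 : k) := by funext w; exact h w xs hx
  show dl (F xs) ws = 0
  rw [e, dl_zero_fun]

theorem NrmM.add {F G : Bi k M E} (h : NrmM F) (h' : NrmM G) : NrmM (F + G) :=
  fun ws => (h ws).add (h' ws)

theorem NrmM.sub {F G : Bi k M E} (h : NrmM F) (h' : NrmM G) : NrmM (F - G) :=
  fun ws => (h ws).sub (h' ws)

theorem NrmM.smul {F : Bi k M E} (a : k) (h : NrmM F) : NrmM (a • F) :=
  fun ws => (h ws).smul a

/-- A normalised bicochain vanishes on vertical lists. -/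
theorem NrmM.aw_vert {F : Bi k M E} (h : NrmM F) {p : ℕ} (hp : 1 ≤ p) {l : List E}
    (hl : 2 ≤ l.length) (hv : ∀ w ∈ l, ∀ w' ∈ l, π w = π w') : aw π p F l = 0 := by
  rcases l with _ | ⟨w, _ | ⟨w', l⟩⟩
  · simp at hl
  · simp at hl
  obtain ⟨p, rfl⟩ : ∃ p', p = p' + 1 := ⟨p - 1, by omega⟩
  refine h _ _ fun hc => ?_
  rw [List.take_succ_cons, List.take_succ_cons, List.map_cons, List.map_cons,
    List.isChain_cons_cons] at hc
  exact hc.1 (hv w (by simp) w' (by simp))

section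

variable [PseudoMetricSpace M] [PseudoMetricSpace E]

/-- Small double lists. -/
def Dom (A : Set M) (X : Set E) (r : ℝ) (xs : List M) (ws : List E) : Prop :=
  SmL A r xs ∧ SmL X r ws ∧ ∀ x ∈ xs, ∀ w ∈ ws, dist x (π w) < r

variable {π} {A : Set M} {X X' : Set E} {r r' : ℝ} {p q : ℕ}

theorem Dom.mono {xs : List M} {ws : List E} (h : Dom π A X r xs ws) (hX : X ⊆ X')
    (hr : r ≤ r') : Dom π A X' r' xs ws :=
  ⟨h.1.mono subset_rfl hr, h.2.1.mono hX hr, fun x hx w hw => (h.2.2 x hx w hw).trans_le hr⟩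

theorem SmL.sub' {Z : Type} [PseudoMetricSpace Z] {Y : Set Z} {l l' : List Z} (h : SmL Y r l)
    (hl : ∀ x ∈ l', x ∈ l) : SmL Y r l' :=
  ⟨fun x hx => h.1 x (hl x hx), fun x hx y hy => h.2 x (hl x hx) y (hl y hy)⟩

theorem Dom.sub {xs ys : List M} {ws vs : List E} (h : Dom π A X r xs ws)
    (hx : ∀ x ∈ ys, x ∈ xs) (hw : ∀ w ∈ vs, w ∈ ws) : Dom π A X r ys vs :=
  ⟨SmL.sub' h.1 hx, SmL.sub' h.2.1 hw, fun x h1 w h2 => h.2.2 x (hx x h1) w (hw w h2)⟩

variable (π A X) in
/-- The bicochains which vanish on the small double lists. -/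
def Zs (k : Type) [Field k] (p q : ℕ) : Submodule k (Bi k M E) where
  carrier := {F | ∃ r > 0, ∀ xs ws, xs.length = p → ws.length = q → Dom π A X r xs ws →
    F xs ws = 0}
  zero_mem' := ⟨1, one_pos, fun _ _ _ _ _ => rfl⟩
  add_mem' := by
    rintro F G ⟨r, hr, h⟩ ⟨r', hr', h'⟩
    refine ⟨min r r', lt_min hr hr', fun xs ws h1 h2 h3 => ?_⟩
    have e1 := h xs ws h1 h2 (h3.mono subset_rfl (min_le_left _ _))
    have e2 := h' xs ws h1 h2 (h3.mono subset_rfl (min_le_right _ _))
    show F xs ws + G xs ws = 0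
    rw [e1, e2, add_zero]
  smul_mem' := by
    rintro a F ⟨r, hr, h⟩
    refine ⟨r, hr, fun xs ws h1 h2 h3 => ?_⟩
    show a * F xs ws = 0
    rw [h xs ws h1 h2 h3, mul_zero]

theorem mem_Zs {F : Bi k M E} : F ∈ Zs π A X k p q ↔ ∃ r > 0, ∀ xs ws, xs.length = p →
    ws.length = q → Dom π A X r xs ws → F xs ws = 0 := Iff.rfl

theorem Zs_mono (h : X' ⊆ X) : Zs π A X k p q ≤ Zs π A X' k p q := by
  rintro F ⟨r, hr, h'⟩
  exact ⟨r, hr, fun xs ws h1 h2 h3 => h' xs ws h1 h2 (h3.mono h le_rfl)⟩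

theorem Zs_monoA {A' : Set M} (h : A' ⊆ A) : Zs π A X k p q ≤ Zs π A' X k p q := by
  rintro F ⟨r, hr, h'⟩
  exact ⟨r, hr, fun xs ws h1 h2 h3 => h' xs ws h1 h2 ⟨h3.1.mono h le_rfl, h3.2⟩⟩

theorem dM_mem {F : Bi k M E} (h : F ∈ Zs π A X k p q) : dM F ∈ Zs π A X k (p + 1) q := by
  obtain ⟨r, hr, h⟩ := h
  refine ⟨r, hr, fun xs ws h1 h2 h3 => ?_⟩
  rw [dM_apply, dl_congr (g := fun _ => (0 : k)) fun ys h4 h5 =>
    h ys ws (by omega) h2 (h3.sub h5 fun _ h => h)]
  exact dl_zero_fun _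

theorem dE_mem {F : Bi k M E} (h : F ∈ Zs π A X k p q) : dE F ∈ Zs π A X k p (q + 1) := by
  obtain ⟨r, hr, h⟩ := h
  refine ⟨r, hr, fun xs ws h1 h2 h3 => ?_⟩
  rw [dE_apply, dl_congr (g := fun _ => (0 : k)) fun ys h4 h5 =>
    h xs ys h1 (by omega) (h3.sub (fun _ h => h) h5)]
  exact dl_zero_fun _

/-- Small lists of `E` over `A` are small double lists. -/
theorem dom_aw (hπ : ∀ w w', dist (π w) (π w') ≤ dist w w') {l : List E}
    (hl : SmL (X ∩ π ⁻¹' A) r l) {xs : List M} {ws : List E} (hx : ∀ x ∈ xs, x ∈ l.map π)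
    (hw : ∀ w ∈ ws, w ∈ l) : Dom π A X r xs ws := by
  refine Dom.sub (xs := l.map π) (ws := l) ⟨⟨fun x hx => ?_, fun x hx y hy => ?_⟩,
    ⟨fun w hw => (hl.1 w hw).1, hl.2⟩, fun x hx w hw => ?_⟩ hx hw
  · obtain ⟨w, hw, rfl⟩ := List.mem_map.1 hx
    exact (hl.1 w hw).2
  · obtain ⟨w, hw, rfl⟩ := List.mem_map.1 hx
    obtain ⟨w', hw', rfl⟩ := List.mem_map.1 hy
    exact (hπ w w').trans_lt (hl.2 w hw w' hw')
  · obtain ⟨w', hw', rfl⟩ := List.mem_map.1 hx
    exact (hπ w' w).trans_lt (hl.2 w' hw' w hw)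

/-- `aw` of a bicochain in `Zs` vanishes on the small lists over `A`. -/
theorem aw_mem (hπ : ∀ w w', dist (π w) (π w') ≤ dist w w') {F : Bi k M E}
    (h : F ∈ Zs π A X k (p + 1) (q + 1)) : ∃ r > 0, ∀ l, l.length = p + q + 1 →
      SmL (X ∩ π ⁻¹' A) r l → aw π p F l = 0 := by
  obtain ⟨r, hr, h⟩ := h
  refine ⟨r, hr, fun l hl hs => h _ _ ?_ ?_ (dom_aw hπ hs ?_ ?_)⟩
  · rw [List.length_map, List.length_take]; omega
  · rw [List.length_drop]; omega
  · intro x hx
    obtain ⟨w, hw, rfl⟩ := List.mem_map.1 hx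
    exact List.mem_map.2 ⟨w, List.mem_of_mem_take hw, rfl⟩
  · exact fun w hw => List.mem_of_mem_drop hw

end

end Vale.Agent.P216.E2L
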