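import Vale.Agent.P216.E2L.Out

/-!
# Extension of a fibre class

A class `V x` of the fibres (a family over the base, `coc`, `comp`) extends to the total space if
all the slots `(p, q)`, `p ≥ 2`, of the next total degree are passed; one slot may be passed with
an eigenvalue.
-/

set_option linter.all false

open Set

namespace Vale.Agent.P216.E2L

open Sl PS

variable {k : Type} [Field k] {M E : Type} [PseudoMetricSpace M] [PseudoMetricSpace E]

section

variable (π : E → M) (A : Set M) (X : Set E)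

/-- An obstruction: `dl W = ε aw F`. -/
structure Obs (m p q : ℕ) (W : List E → k) (F : Bi k M E) (ε : k) : Prop where
  deg : p + q = m + 1
  bc : BC π A X p q F
  eq : ∃ r > 0, ∀ l, l.length = m + 2 → SmL (X ∩ π ⁻¹' A) r l → dl W l = ε * aw π p F l

/-- Equality on vertical lists. -/
def VE (m : ℕ) (W W' : List E → k) : Prop :=
  ∀ l : List E, l.length = m + 1 → (∀ w ∈ l, ∀ w' ∈ l, π w = π w') → W l = W' l

end

variable {π : E → M} {A : Set M} {X X' X₁ X₂ X₃ : Set E} {m p q p' q' : ℕ}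
  {v : M → List E → k} {ε ε' : k}

theorem VE.refl (W : List E → k) : VE π m W W := fun _ _ _ => rfl

theorem VE.trans {W W' W'' : List E → k} (h : VE π m W W') (h' : VE π m W' W'') :
    VE π m W W'' := fun l hl hv => (h l hl hv).trans (h' l hl hv)

theorem Obs.mono {W : List E → k} {F : Bi k M E} (h : Obs π A X m p q W F ε) (hX : X' ⊆ X) :
    Obs π A X' m p q W F ε := by
  refine ⟨h.deg, h.bc.mono hX, ?_⟩
  obtain ⟨r, hr, h1⟩ := h.eq
  exact ⟨r, hr, fun l hl hs => h1 l hl (hs.mono (inter_subset_inter_left _ hX) le_rfl)⟩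

theorem Obs.red {W : List E → k} {F : Bi k M E} (h : Obs π A X m p q W F ε) (hm : 1 ≤ m)
    (hp : 2 ≤ p) (hX : X' ⊆ X) (hR : Red π A X X' p q p' q' ε') (hpq : p' + q' = p + q) :
    ∃ W' F', Obs π A X' m p' q' W' F' (ε * ε') ∧ VE π m W' W := by
  obtain ⟨F', hF', G, hG, r, hr, h1⟩ := hR F h.bc
  obtain ⟨r', hr', h2⟩ := h.eq
  have hd := h.deg
  refine ⟨fun l => W l + -ε * G l, F', ⟨by omega, hF', min r r', lt_min hr hr',
    fun l hl hs => ?_⟩, fun l hl hv => ?_⟩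
  · rw [Sl.dl_add, dl_mul_left, h2 l hl (hs.mono (inter_subset_inter_left _ hX)
      (min_le_right _ _)), h1 l (by omega) (hs.mono subset_rfl (min_le_left _ _))]
    ring
  · show W l + -ε * G l = W l
    rw [hG hp l (by omega) hv]
    ring

theorem Obs.kill {W : List E → k} {F : Bi k M E} (h : Obs π A X m p q W F ε) (hm : 1 ≤ m)
    (hp : 2 ≤ p) (hX : X' ⊆ X) (hK : Kill π A X X' k p q) :
    ∃ Z, CocL (X' ∩ π ⁻¹' A) m Z ∧ VE π m Z W := by
  obtain ⟨G, hG, -, r, hr, h1⟩ := hK F h.bc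
  obtain ⟨r', hr', h2⟩ := h.eq
  have hd := h.deg
  refine ⟨fun l => W l + -ε * G l, ⟨min r r', lt_min hr hr', fun l hl hs => ?_⟩,
    fun l hl hv => ?_⟩
  · rw [Sl.dl_add, dl_mul_left, h2 l hl (hs.mono (inter_subset_inter_left _ hX)
      (min_le_right _ _)), h1 l (by omega) (hs.mono subset_rfl (min_le_left _ _))]
    ring
  · show W l + -ε * G l = W l
    rw [hG hp l (by omega) hv]
    ring

/-! ### The start -/

/-- The unit of degree zero. -/
def one0 (k : Type) [Field k] {M : Type} (l : List M) : k :=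
  match l with
  | [] => 0
  | [_] => 1
  | _ :: _ :: _ => 0

theorem one0_nrm : Nrm (one0 k (M := M)) := by
  intro l hl
  rcases l with _ | ⟨x, _ | ⟨y, l⟩⟩
  · rfl
  · exact absurd (List.isChain_singleton x) hl
  · rfl

/-- The family on its own fibres. -/
def diagV (π : E → M) (V : M → List E → k) (l : List E) : k :=
  match l with
  | [] => 0
  | w :: l => V (π w) (w :: l)

/-- A family of cocycles of degree `m` of the fibres over small pieces of the base. -/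
structure FamV (π : E → M) (A : Set M) (X : Set E) (m : ℕ) (V : M → List E → k) : Prop where
  coc : ∃ r > 0, ∀ x ws, ws.length = m + 2 → Dom π A X r [x] ws → dl (V x) ws = 0
  comp : ∃ h : M → M → List E → k, ∃ r > 0, ∀ x y ws, ws.length = m + 1 →
    Dom π A X r [x, y] ws → V y ws - V x ws = dl (h x y) ws

theorem LineB.famV (L : LineB π A X X' q v) : FamV π A X' q v := ⟨L.coc, L.comp⟩

theorem FamV.mono {V : M → List E → k} (h : FamV π A X m V) (hX : X' ⊆ X) :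
    FamV π A X' m V := by
  obtain ⟨r, hr, h1⟩ := h.coc
  obtain ⟨g, r', hr', h2⟩ := h.comp
  exact ⟨⟨r, hr, fun x ws h3 h4 => h1 x ws h3 (h4.mono hX le_rfl)⟩,
    ⟨g, r', hr', fun x y ws h3 h4 => h2 x y ws h3 (h4.mono hX le_rfl)⟩⟩

/-- The first obstruction of a family of fibre classes. -/
theorem FamV.obs {V : M → List E → k} (h : FamV π A X (q + 1) V)
    (hπ : ∀ w w', dist (π w) (π w') ≤ dist w w') :
    ∃ W F, Obs π A X (q + 1) 2 q W F (1 : k) ∧ VE π (q + 1) W (diagV π V) := by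
  classical
  obtain ⟨h₀, r₂, hr₂, hh₀⟩ := h.comp
  set g : M → M → List E → k := fun x y => if x = y then 0 else h₀ x y with hdef
  have hh : ∀ x y ws, ws.length = q + 2 → Dom π A X r₂ [x, y] ws →
      V y ws - V x ws = dl (g x y) ws := by
    intro x y ws h3 h4
    by_cases hxy : x = y
    · subst hxy
      simp only [hdef, if_pos rfl, sub_self]
      exact (dl_zero_fun _).symm
    · simp only [hdef, if_neg hxy]
      exact hh₀ x y ws h3 h4
  have hhx : ∀ x, g x x = 0 := fun x => by simp only [hdef, if_pos rfl]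
  have hVE : dE (ten (one0 k) V) ∈ Zs π A X k (0 + 1) (q + 2 + 1) := by
    obtain ⟨r₁, hr₁, h1⟩ := h.coc
    refine ⟨r₁, hr₁, fun xs ws h4 h5 h6 => ?_⟩
    obtain ⟨x, rfl⟩ := List.length_eq_one_iff.1 h4
    rw [dE_ten_cons, h1 x ws (by omega) h6, mul_zero]
  have hd : dM (ten (one0 k) V) - dE (cor (one0 k) g) ∈ Zs π A X k (1 + 1) (q + 2) := by
    refine ⟨r₂, hr₂, fun xs ws h4 h5 h6 => ?_⟩
    obtain ⟨x, y, rfl⟩ := List.length_eq_two.1 h4
    have e1 := hh x y ws (by omega) h6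
    have e2 : dE (cor (one0 k) g) [x, y] ws = one0 k [y] * dl (g x y) ws := by
      rw [dE_apply]
      exact dl_mul_left _ _ _
    show dM (ten (one0 k) V) [x, y] ws - dE (cor (one0 k) g) [x, y] ws = 0
    have e3 : dl (one0 k) [x, y] = 0 := by
      rw [dl_cons, dl_one]
      show (1 : k) - 1 = 0
      exact sub_self _
    rw [dM_ten, e1, e2, e3]
    ring
  have hF1 : BC π A X 1 (q + 1) (dM (ten (one0 k) V)) := by
    refine ⟨(ten_nrm one0_nrm V).dM, ?_, ?_⟩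
    · rw [← dM_dE]
      exact dM_mem hVE
    · rw [dM_dM]
      exact zero_mem _
  have hY : NrmM (cor (one0 k) g) := cor_nrm one0_nrm hhx
  obtain ⟨r₃, hr₃, h3⟩ := aw_step hπ hd
  obtain ⟨r₄, hr₄, h4⟩ := aw_mem (q := q + 2) hπ hVE
  refine ⟨fun l => aw π 0 (ten (one0 k) V) l + aw π 1 (cor (one0 k) g) l,
    dM (cor (one0 k) g), ⟨by omega, hF1.next subset_rfl hY hd, min r₃ r₄, lt_min hr₃ hr₄,
    fun l hl hs => ?_⟩, fun l hl hv => ?_⟩
  · have e1 := h3 l (by omega) (hs.mono subset_rfl (min_le_left _ _))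
    have e2 := h4 l (by omega) (hs.mono subset_rfl (min_le_right _ _))
    have e3 := dl_aw π 0 (ten (one0 k) V) l (by omega)
    rw [e2, mul_zero, add_zero] at e3
    have e4 : dl (fun l => (-1 : k) ^ 1 * aw π 1 (cor (one0 k) g) l) l =
        (-1 : k) ^ 1 * dl (aw π 1 (cor (one0 k) g)) l := dl_mul_left _ _ _
    rw [e4] at e1
    have e5 : dl (fun l => aw π 0 (ten (one0 k) V) l + aw π 1 (cor (one0 k) g) l) l =
        dl (aw π 0 (ten (one0 k) V)) l + dl (aw π 1 (cor (one0 k) g)) l := Sl.dl_add _ _ _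
    rw [e5, e3]
    have e6 : (0 : ℕ) + 1 = 1 := rfl
    rw [e6, e1]
    ring
  · show aw π 0 (ten (one0 k) V) l + aw π 1 (cor (one0 k) g) l = diagV π V l
    rw [hY.aw_vert π le_rfl (by omega) hv, add_zero]
    rcases l with _ | ⟨w, l⟩
    · simp at hl
    · show one0 k [π w] * V (π w) (w :: l) = V (π w) (w :: l)
      exact one_mul _

/-- **Extension of a fibre class.** -/
theorem FamV.ext {V : M → List E → k} (h : FamV π A X (q + 1) V)
    (hπ : ∀ w w', dist (π w) (π w') ≤ dist w w') (hX : X' ⊆ X) (hK : Kill π A X X' k 2 q) :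
    ∃ Z, CocL (X' ∩ π ⁻¹' A) (q + 1) Z ∧ VE π (q + 1) Z (diagV π V) := by
  obtain ⟨W, F, hO, hW⟩ := h.obs hπ
  obtain ⟨Z, hZ, hZW⟩ := hO.kill (by omega) le_rfl hX hK
  exact ⟨Z, hZ, hZW.trans hW⟩

/-! ### Passing a slot with an eigenvalue -/

/-- Pull-back of bicochains in the fibre variable. -/
def pbE (θ : E → E) (F : Bi k M E) : Bi k M E := fun xs ws => F xs (ws.map θ)

theorem dE_pbE (θ : E → E) (F : Bi k M E) : dE (pbE θ F) = pbE θ (dE F) := by
  funext xs ws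
  exact Sl.dl_map _ _ _

theorem dM_pbE (θ : E → E) (F : Bi k M E) : dM (pbE θ F) = pbE θ (dM F) := rfl

theorem NrmM.pbE {F : Bi k M E} (h : NrmM F) (θ : E → E) : NrmM (pbE θ F) :=
  fun ws => h (ws.map θ)

/-- The operator `θ` maps `X'` to `X` over the base. -/
structure OpE (π : E → M) (X' X : Set E) (θ : E → E) : Prop where
  maps : MapsTo θ X' X
  uc : ∀ r > 0, ∃ δ > 0, ∀ w ∈ X', ∀ w' ∈ X', dist w w' < δ → dist (θ w) (θ w') < r
  pi : ∀ w ∈ X', π (θ w) = π w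

theorem OpE.dom {θ : E → E} (h : OpE π X' X θ) {ρ : ℝ} (hρ : 0 < ρ) : ∃ δ > 0, ∀ xs ws,
    Dom π A X' δ xs ws → Dom π A X ρ xs (ws.map θ) := by
  obtain ⟨δ, hδ, hu⟩ := h.uc ρ hρ
  refine ⟨min δ ρ, lt_min hδ hρ, fun xs ws hD => ⟨hD.1.mono subset_rfl (min_le_right _ _),
    ⟨fun w hw => ?_, fun w hw w' hw' => ?_⟩, fun x hx w hw => ?_⟩⟩
  · obtain ⟨u, hu', rfl⟩ := List.mem_map.1 hw
    exact h.maps (hD.2.1.1 u hu')
  · obtain ⟨u, h1, rfl⟩ := List.mem_map.1 hw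
    obtain ⟨u', h2, rfl⟩ := List.mem_map.1 hw'
    exact hu u (hD.2.1.1 u h1) u' (hD.2.1.1 u' h2)
      ((hD.2.1.2 u h1 u' h2).trans_le (min_le_left _ _))
  · obtain ⟨u, h1, rfl⟩ := List.mem_map.1 hw
    rw [h.pi u (hD.2.1.1 u h1)]
    exact (hD.2.2 x hx u h1).trans_le (min_le_right _ _)

theorem OpE.mem {θ : E → E} (h : OpE π X' X θ) {F : Bi k M E} {i j : ℕ}
    (hF : F ∈ Zs π A X k i j) : pbE θ F ∈ Zs π A X' k i j := by
  obtain ⟨ρ, hρ, h'⟩ := hF
  obtain ⟨δ, hδ, hD⟩ := h.dom (A := A) hρ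
  exact ⟨δ, hδ, fun xs ws h1 h2 h3 => h' xs _ h1 (by rw [List.length_map, h2]) (hD xs ws h3)⟩

theorem OpE.bc {θ : E → E} (h : OpE π X' X θ) {F : Bi k M E} (hF : BC π A X p q F) :
    BC π A X' p q (pbE θ F) :=
  ⟨hF.n.pbE θ, by rw [dE_pbE]; exact h.mem hF.e, by rw [dM_pbE]; exact h.mem hF.m⟩

theorem OpE.smL {θ : E → E} (h : OpE π X' X θ) {ρ : ℝ} (hρ : 0 < ρ) : ∃ δ > 0, ∀ l,
    SmL (X' ∩ π ⁻¹' A) δ l → SmL (X ∩ π ⁻¹' A) ρ (l.map θ) := by
  obtain ⟨δ, hδ, hu⟩ := h.uc ρ hρ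
  refine ⟨δ, hδ, fun l hs => ⟨fun w hw => ?_, fun w hw w' hw' => ?_⟩⟩
  · obtain ⟨u, h1, rfl⟩ := List.mem_map.1 hw
    refine ⟨h.maps (hs.1 u h1).1, ?_⟩
    show π (θ u) ∈ A
    rw [h.pi u (hs.1 u h1).1]
    exact (hs.1 u h1).2
  · obtain ⟨u, h1, rfl⟩ := List.mem_map.1 hw
    obtain ⟨u', h2, rfl⟩ := List.mem_map.1 hw'
    exact hu u (hs.1 u h1).1 u' (hs.1 u' h2).1 (hs.2 u h1 u' h2)

theorem OpE.aw {θ : E → E} (h : OpE π X' X θ) (F : Bi k M E) {l : List E}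
    (hl : ∀ w ∈ l, w ∈ X') : aw π p F (l.map θ) = aw π p (pbE θ F) l := by
  show F (((l.map θ).take (p + 1)).map π) ((l.map θ).drop p) =
    F ((l.take (p + 1)).map π) ((l.drop p).map θ)
  rw [← List.map_take, ← List.map_drop, List.map_map]
  congr 1
  exact List.map_congr_left fun w hw => h.pi w (hl w (List.mem_of_mem_take hw))

/-- The operator acts on the family `v` by the scalar `a`. -/
def OpV (π : E → M) (A : Set M) (X' : Set E) (q : ℕ) (v : M → List E → k) (θ : E → E) (a : k) :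
    Prop :=
  ∃ h : M → List E → k, ∃ r > 0, ∀ x ws, ws.length = q + 1 → Dom π A X' r [x] ws →
    v x (ws.map θ) - a * v x ws = dl (h x) ws

/-- A line slot is passed by `θ - a`, `a` the eigenvalue of the slot. -/
theorem Obs.eig {X₁' X₂' : Set E} (L : LineB π A X₁ X₂ (q + 1) v)
    (hπ : ∀ w w', dist (π w) (π w') ≤ dist w w') (hX₁ : X₁' ⊆ X₁)
    (hX₂ : X₂' ⊆ X₂) (hX' : X₂' ⊆ X₁') {θ : E → E} (h1 : OpE π X₁' X₁ θ)
    (h2 : OpE π X₂' X₂ θ) {a : k} (hv : OpV π A X₂' (q + 1) v θ a) {W : List E → k}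
    {F : Bi k M E} (hO : Obs π A X₁ m p (q + 1) W F ε) (hm : 1 ≤ m) (hp : 2 ≤ p) :
    ∃ W' F', Obs π A X₂' m (p + 1) q W' F' (-(-1 : k) ^ p * ε) ∧
      ∀ l, l.length = m + 1 → (∀ w ∈ l, ∀ w' ∈ l, π w = π w') →
        W' l = W (l.map θ) - a * W l := by
  obtain ⟨g, r₀, hr₀, hg⟩ := hv
  have hd := hO.deg
  obtain ⟨c, hc, Y, hY, hdY⟩ := L.exists_c hO.bc.n hO.bc.e
  -- the difference
  set F₁ : Bi k M E := pbE θ F - a • F with hF₁
  have hBC : BC π A X₂' p (q + 1) F₁ := by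
    have := ((h1.bc hO.bc).add ((hO.bc.mono hX₁).smul (-a))).mono hX'
    rwa [neg_smul, ← sub_eq_add_neg] at this
  set Y₁ : Bi k M E := pbE θ Y + ten c g - a • Y with hY₁
  have hYn : NrmM Y₁ := ((hY.pbE θ).add (ten_nrm hc g)).sub (hY.smul a)
  have hdd : F₁ - dE Y₁ ∈ Zs π A X₂' k (p + 1) (q + 2) := by
    obtain ⟨ρ, hρ, e1⟩ := h2.mem hdY
    obtain ⟨ρ', hρ', e2⟩ := Zs_mono hX₂ hdY
    refine ⟨min r₀ (min ρ ρ'), lt_min hr₀ (lt_min hρ hρ'), fun xs ws h3 h4 h5 => ?_⟩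
    have e1 := e1 xs ws h3 h4
      (h5.mono subset_rfl ((min_le_right _ _).trans (min_le_left _ _)))
    have e2 := e2 xs ws h3 h4
      (h5.mono subset_rfl ((min_le_right _ _).trans (min_le_right _ _)))
    rcases xs with _ | ⟨x, xs⟩
    · simp at h3
    have e3 := hg x ws (by omega)
      ((h5.mono subset_rfl (min_le_left _ _)).sub (by simp) fun _ h => h)
    have e4 : dE (ten c g) (x :: xs) ws = c (x :: xs) * dl (g x) ws := dE_ten_cons c g x xs ws
    have e1' : F (x :: xs) (ws.map θ) - c (x :: xs) * v x (ws.map θ) -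
        dE Y (x :: xs) (ws.map θ) = 0 := e1
    have e2' : F (x :: xs) ws - c (x :: xs) * v x ws - dE Y (x :: xs) ws = 0 := e2
    rw [hY₁, map_sub, map_add, map_smul, dE_pbE]
    show (F (x :: xs) (ws.map θ) - a * F (x :: xs) ws) -
      ((dE Y (x :: xs) (ws.map θ) + dE (ten c g) (x :: xs) ws) - a * dE Y (x :: xs) ws) = 0
    rw [e4, ← e3]
    linear_combination e1' - a * e2'
  obtain ⟨r₁, hr₁, h3⟩ := aw_step hπ hdd
  obtain ⟨r₂, hr₂, h4⟩ := hO.eq
  obtain ⟨r₃, hr₃, h5⟩ := h1.smL (A := A) hr₂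
  refine ⟨fun l => (W (l.map θ) + -a * W l) + -ε * ((-1 : k) ^ p * aw π p Y₁ l), dM Y₁,
    ⟨by omega, hBC.next subset_rfl hYn hdd, min r₁ (min r₂ r₃),
      lt_min hr₁ (lt_min hr₂ hr₃), fun l hl hs => ?_⟩, fun l hl hv => ?_⟩
  · have s1 := hs.mono (subset_refl _) (min_le_left r₁ (min r₂ r₃))
    have s2 := hs.mono (inter_subset_inter_left _ (hX'.trans hX₁))
      ((min_le_right r₁ (min r₂ r₃)).trans (min_le_left _ _))
    have s3 := hs.mono (inter_subset_inter_left _ hX')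
      ((min_le_right r₁ (min r₂ r₃)).trans (min_le_right _ _))
    have e1 := h3 l (by omega) s1
    have e2 := h4 l hl s2
    have e3 := h4 (l.map θ) (by rw [List.length_map, hl]) (h5 l s3)
    rw [h1.aw F fun w hw => hX' (hs.1 w hw).1] at e3
    rw [Sl.dl_add, Sl.dl_add, dl_mul_left, dl_mul_left, Sl.dl_map, e2, e3]
    have e4 : aw π p F₁ l = aw π p (pbE θ F) l - a * aw π p F l := rfl
    rw [e4] at e1
    linear_combination ε * e1
  · show (W (l.map θ) + -a * W l) + -ε * ((-1 : k) ^ p * aw π p Y₁ l) = _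
    rw [hYn.aw_vert π (by omega) (by omega) hv]
    ring

/-- **Extension of a fibre class, one slot passed with an eigenvalue.** -/
theorem FamV.ext_eig {V : M → List E → k} {X₁' X₂' : Set E} (h : FamV π A X (m + 1) V)
    (hπ : ∀ w w', dist (π w) (π w') ≤ dist w w') (hX : X₁ ⊆ X)
    (hR : Red π A X X₁ 2 m p (q + 1) ε) (hpq : p + (q + 1) = 2 + m) (hp : 2 ≤ p)
    (L : LineB π A X₁ X₂ (q + 1) v) (hX₁ : X₁' ⊆ X₁) (hX₂ : X₂' ⊆ X₂) (hX' : X₂' ⊆ X₁')
    {θ : E → E} (h1 : OpE π X₁' X₁ θ) (h2 : OpE π X₂' X₂ θ) {a : k}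
    (hv : OpV π A X₂' (q + 1) v θ a) (hX₃ : X₃ ⊆ X₂') (hK : Kill π A X₂' X₃ k (p + 1) q) :
    ∃ Z, CocL (X₃ ∩ π ⁻¹' A) (m + 1) Z ∧ ∀ l, l.length = m + 2 → (∀ w ∈ l, w ∈ X₁') →
      (∀ w ∈ l, ∀ w' ∈ l, π w = π w') → Z l = diagV π V (l.map θ) - a * diagV π V l := by
  obtain ⟨W, F, hO, hW⟩ := h.obs hπ
  obtain ⟨W₁, F₁, hO₁, hW₁⟩ := hO.red (by omega) le_rfl hX hR (by omega)
  obtain ⟨W₂, F₂, hO₂, hW₂⟩ := hO₁.eig L hπ hX₁ hX₂ hX' h1 h2 hv (by omega) hp
  obtain ⟨Z, hZ, hZW⟩ := hO₂.kill (by omega) (by omega) hX₃ hK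
  refine ⟨Z, hZ, fun l hl hX hv => ?_⟩
  have e1 := hZW l (by omega) hv
  have e2 := hW₂ l (by omega) hv
  have e3 := (hW₁.trans hW) l (by omega) hv
  have hv' : ∀ w ∈ l.map θ, ∀ w' ∈ l.map θ, π w = π w' := by
    intro w hw w' hw'
    obtain ⟨u, h3, rfl⟩ := List.mem_map.1 hw
    obtain ⟨u', h4, rfl⟩ := List.mem_map.1 hw'
    rw [h1.pi u (hX u h3), h1.pi u' (hX u' h4)]
    exact hv u h3 u' h4
  have e4 := (hW₁.trans hW) (l.map θ) (by rw [List.length_map]; omega) hv'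
  rw [e1, e2, e3, e4]

end Vale.Agent.P216.E2L
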