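import Vale.Agent.P216.E2L.Fib

/-!
# The outputs (L1), (L2), (L2w), (L3) of the Leray zigzag
-/

set_option linter.all false

open Set

namespace Vale.Agent.P216.E2L

open Sl PS

variable {k : Type} [Field k] {M E : Type} [PseudoMetricSpace M] [PseudoMetricSpace E]

section mono

variable {π : E → M} {A : Set M} {X X' X'' : Set E} {p q : ℕ}

theorem Slot.mono (h : Slot π A X X' k p q) (hX : X'' ⊆ X') : Slot π A X X'' k p q := by
  intro F hF
  obtain ⟨F', hF', G, hG, r, hr, h⟩ := h F hF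
  exact ⟨F', hF'.mono hX, G, hG, r, hr, fun l hl hs =>
    h l hl (hs.mono (inter_subset_inter_left _ hX) le_rfl)⟩

theorem Kill.mono (h : Kill π A X X' k p q) (hX : X'' ⊆ X') : Kill π A X X'' k p q := by
  intro F hF
  obtain ⟨G, hG, h0, r, hr, h⟩ := h F hF
  exact ⟨G, hG, h0, r, hr, fun l hl hs =>
    h l hl (hs.mono (inter_subset_inter_left _ hX) le_rfl)⟩

theorem Kill.mono' (h : Kill π A X X' k p q) (hX : X ⊆ X'') : Kill π A X'' X' k p q :=
  fun F hF => h F (hF.mono hX)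

/-- The coefficient of a bicocycle in the last slot. -/
theorem base_coef (hπ : ∀ w w', dist (π w) (π w') ≤ dist w w') (hX : X' ⊆ X)
    (hN : NullB π A X X' k 0) (hne : ∀ x ∈ A, ∃ w ∈ X', π w = x) {F : Bi k M E}
    (hF : BC π A X p 0 F) : ∃ c : List M → k, Nrm c ∧ CocL A p c ∧ ∃ r > 0, ∀ l,
      l.length = p + 1 → SmL (X' ∩ π ⁻¹' A) r l → aw π p F l = c (l.map π) := by
  obtain ⟨Y, hY, hd⟩ := exists_Y hN hF.n hF.e
  refine ⟨fun xs => Y xs [], hY [], ?_, ?_⟩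
  · have h1 := dM_mem hd
    rw [map_sub] at h1
    have h2 := sub_mem (Zs_mono hX hF.m) h1
    rw [sub_sub_cancel, dM_dE] at h2
    obtain ⟨r, hr, h⟩ := h2
    refine ⟨r, hr, fun l hl hs => ?_⟩
    rcases l with _ | ⟨x, l⟩
    · simp at hl
    obtain ⟨w, hw, hx⟩ := hne x (hs.1 x (by simp))
    have h3 := h (x :: l) [w] hl rfl ⟨hs, ⟨fun y hy => ?_, fun y hy z hz => ?_⟩,
      fun y hy z hz => ?_⟩
    · rw [dE_apply, dl_one] at h3
      exact h3
    · rw [List.mem_singleton.1 hy]; exact hw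
    · rw [List.mem_singleton.1 hy, List.mem_singleton.1 hz, dist_self]; exact hr
    · rw [List.mem_singleton.1 hz, hx]
      exact hs.2 y hy x (by simp)
  · obtain ⟨r', hr', h'⟩ := aw_mem (q := 0) hπ hd
    refine ⟨r', hr', fun l hl hs => ?_⟩
    have h1 := h' l (by omega) hs
    rw [map_sub] at h1
    have h3 : aw π p F l = aw π p (dE Y) l := sub_eq_zero.1 h1
    have h4 : aw π p (dE Y) l = Y (l.map π) [] := by
      rw [aw_apply, List.take_of_length_le (by omega), dE_apply]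
      obtain ⟨w, hw⟩ : ∃ w, l.drop p = [w] := List.length_eq_one_iff.1
        (by rw [List.length_drop]; omega)
      rw [hw, dl_one]
    rw [h3, h4]

end mono

/-! ### Exactness of list cochains -/

section exact

variable {Y Y' : Set E} {n : ℕ}

theorem exAdd {f g : List E → k} (hf : ExL Y n f) (hg : ExL Y n g) :
    ExL Y n fun l => f l + g l := by
  obtain ⟨u, hu, ε, hε, h⟩ := hf
  obtain ⟨u', hu', ε', hε', h'⟩ := hg
  refine ⟨fun l => u l + u' l, fun h0 l => by show u l + u' l = 0; rw [hu h0, hu' h0, add_zero],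
    min ε ε', lt_min hε hε', fun l hl hs => ?_⟩
  show f l + g l = _
  rw [h l hl (hs.mono le_rfl (min_le_left _ _)), h' l hl (hs.mono le_rfl (min_le_right _ _)),
    Sl.dl_add]

theorem exSmul {f : List E → k} (a : k) (hf : ExL Y n f) : ExL Y n fun l => a * f l := by
  obtain ⟨u, hu, ε, hε, h⟩ := hf
  exact ⟨fun l => a * u l, fun h0 l => by show a * u l = 0; rw [hu h0, mul_zero], ε, hε,
    fun l hl hs => by show a * f l = _; rw [h l hl hs, dl_mul_left]⟩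

theorem exCongr {f g : List E → k} (hf : ExL Y n f) (h : ∃ r > 0, ∀ l, l.length = n + 1 →
    SmL Y r l → g l = f l) : ExL Y n g := by
  obtain ⟨u, hu, ε, hε, h1⟩ := hf
  obtain ⟨r, hr, h⟩ := h
  exact ⟨u, hu, min ε r, lt_min hε hr, fun l hl hs => by
    rw [h l hl (hs.mono le_rfl (min_le_right _ _)), h1 l hl (hs.mono le_rfl (min_le_left _ _))]⟩

theorem exComp {f : List E → k} (hf : ExL Y n f) {θ : E → E}
    (h : ∀ r > 0, ∃ δ > 0, ∀ l, SmL Y' δ l → SmL Y r (l.map θ)) :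
    ExL Y' n fun l => f (l.map θ) := by
  obtain ⟨u, hu, ε, hε, h1⟩ := hf
  obtain ⟨δ, hδ, h2⟩ := h ε hε
  refine ⟨fun l => u (l.map θ), fun h0 l => hu h0 _, δ, hδ, fun l hl hs => ?_⟩
  show f (l.map θ) = _
  rw [h1 _ (by rw [List.length_map, hl]) (h2 l hs), Sl.dl_map]

end exact

variable {π : E → M} {A : Set M} {X Ob : ℝ → Set E} {x₀ : M} {θ : ℝ → E → E} {mθ : ℝ}
  {Fs Bs : ℕ → Prop} {w : ℕ → k}

/-- The operators `θ t` and `θ s` agree on the classes of `X s`, `s ≤ t`. -/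
def OpN (X : ℝ → Set E) (θ : ℝ → E → E) (m : ℝ) (k : Type) [Field k] : Prop :=
  ∀ s > 0, ∀ t ≥ s, ∀ (n : ℕ) (f : List E → k), CocL (X (m * t)) n f →
    ExL (X s) n fun l => f (l.map (θ t)) - f (l.map (θ s))

/-- Passable slots. -/
def PassE (π : E → M) (A : Set M) (X : ℝ → Set E) (k : Type) [Field k] (i j : ℕ) : Prop :=
  ∀ t > 0, ∃ T ≥ t, Slot π A (X T) (X t) k i j

/-- Killed bidegrees. -/
def KillE (π : E → M) (A : Set M) (X : ℝ → Set E) (k : Type) [Field k] (i j : ℕ) : Prop :=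
  ∀ t > 0, ∃ T ≥ t, Kill π A (X T) (X t) k i j

theorem killE (hX : Monotone X) {n : ℕ} : ∀ j i, i + j = n →
    (∀ i' j', i' + j' + 1 = n → i ≤ i' → PassE π A X k i' j') → KillE π A X k n 0 →
    KillE π A X k i j := by
  intro j
  induction j with
  | zero =>
    intro i h1 _ h3
    have : i = n := by omega
    subst this
    exact h3
  | succ j ih =>
    intro i h1 h2 h3 t ht
    obtain ⟨T₁, hT₁, hK⟩ := ih (i + 1) (by omega) (fun i' j' h4 h5 => h2 i' j' h4 (by omega)) h3 t ht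
    obtain ⟨T₂, hT₂, hS⟩ := h2 i j (by omega) le_rfl T₁ (lt_of_lt_of_le ht hT₁)
    exact ⟨T₂, le_trans hT₁ hT₂, hK.succ (hX hT₁) hS⟩

theorem redE (hX : Monotone X) {n p q : ℕ} (hpq : p + q = n) : ∀ d p' q', p' = p + d →
    p' + q' = n → (∀ i j, i + j + 1 = n → p ≤ i → i < p' → PassE π A X k i j) →
    ∀ t > 0, ∃ T ≥ t, ∃ ε : k, ε ≠ 0 ∧ Red π A (X T) (X t) p q p' q' ε := by
  intro d
  induction d with
  | zero =>
    intro p' q' h1 h2 _ t ht
    have e1 : p' = p := by omega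
    have e2 : q' = q := by omega
    subst e1 e2
    exact ⟨t, le_rfl, 1, one_ne_zero, Red.refl subset_rfl⟩
  | succ d ih =>
    intro p' q' h1 h2 hS t ht
    obtain ⟨p', rfl⟩ : ∃ i, p' = i + 1 := ⟨p' - 1, by omega⟩
    obtain ⟨T₁, hT₁, h⟩ := hS p' q' (by omega) (by omega) (by omega) t ht
    obtain ⟨T₂, hT₂, ε, hε, hR⟩ := ih p' (q' + 1) (by omega) (by omega)
      (fun i j h3 h4 h5 => hS i j h3 h4 (by omega)) T₁ (lt_of_lt_of_le ht hT₁)
    exact ⟨T₂, le_trans hT₁ hT₂, ε * -(-1 : k) ^ p',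
      mul_ne_zero hε (neg_ne_zero.2 (pow_ne_zero _ (by simp))),
      hR.trans h.red (hX hT₁) (by omega) (by omega)⟩

section

variable (h : Fib π A X Ob x₀ θ mθ k Fs w) (b : BaseH k A Bs)

include h b

theorem passE {i j : ℕ} (hij : ¬ (Bs i ∧ Fs (j + 1))) : PassE π A X k i j := by
  intro t ht
  by_cases hF : Fs (j + 1)
  · obtain ⟨t₀, ht₀, hl⟩ := h.line (j + 1) hF (by omega)
    obtain ⟨T, hT, v, L, -⟩ := hl (max t t₀) (le_max_right _ _)
    exact ⟨T, (le_max_left _ _).trans hT, (slot_line L h.lip (h.mono hT)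
      (b.ex i fun hb => hij ⟨hb, hF⟩)).mono (h.mono (le_max_left _ _))⟩
  · obtain ⟨T, hT, hN⟩ := h.null (j + 1) hF t ht
    exact ⟨T, hT, slot_null h.lip (h.mono hT) hN⟩

theorem killE_zero {n : ℕ} (hn : ¬ Bs n) : KillE π A X k n 0 := by
  intro t ht
  obtain ⟨T, hT, hN⟩ := h.zero t ht
  exact ⟨T, hT, kill_zero h.lip (h.mono hT) hN (h.ne t ht) (b.ex n hn)⟩

theorem killE_of {n p q : ℕ} (hpq : p + q = n)
    (hn : ∀ p' q', p' + q' = n → p ≤ p' → ¬ (Bs p' ∧ Fs q')) : KillE π A X k p q :=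
  killE h.mono q p hpq (fun i j h1 h2 => passE h b fun h3 => hn i (j + 1) (by omega) h2 h3)
    (killE_zero h b fun hb => hn n 0 (by omega) (by omega) ⟨hb, h.f0⟩)

/-- **(L1)** -/
theorem Fib.l1 {n : ℕ} (hn : ∀ p q, p + q = n → ¬ (Bs p ∧ Fs q)) : ∀ t > 0, ∃ T ≥ t,
    ∀ f : List E → k, CocL (X T) n f → ExL (X t ∩ π ⁻¹' A) n f := by
  intro t ht
  obtain ⟨T, hT, hK⟩ := killE_of h b (p := 0) (q := n) (by omega) (fun p' q' h1 _ => hn p' q' h1)
    t ht
  exact ⟨T, hT, fun f hf => leray_zero hK (CocL.cocA hf)⟩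

/-- The last slot. -/
theorem coef0 {n : ℕ} (hn : ∀ p q, p + q = n → q ≠ 0 → ¬ (Bs p ∧ Fs q)) : ∀ t > 0, ∃ T ≥ t,
    ∀ f : List E → k, CocL (X T) n f → ∃ c : List M → k, Nrm c ∧ CocL A n c ∧
      ExL (X t ∩ π ⁻¹' A) n fun l => f l - c (l.map π) := by
  intro t ht
  obtain ⟨T₁, hT₁, hN⟩ := h.zero t ht
  rcases Nat.eq_zero_or_pos n with rfl | hn0
  · refine ⟨T₁, hT₁, fun f hf => ?_⟩
    obtain ⟨c, hc, hcc, r, hr, h1⟩ := base_coef h.lip (h.mono hT₁) hN (h.ne t ht)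
      (F0_bc (π := π) (A := A) (CocL.cocA hf))
    refine ⟨c, hc, hcc, fun _ => 0, fun _ _ => rfl, r, hr, fun l hl hs => ?_⟩
    have h2 := h1 l hl hs
    rw [aw_F0 f (by intro h; rw [h] at hl; simp at hl)] at h2
    show f l - c (l.map π) = _
    rw [dl_zero_fun, h2, sub_self]
  · obtain ⟨T, hT, ε, hε, hR⟩ := redE (π := π) (A := A) (k := k) h.mono (n := n) (p := 0)
      (q := n) (by omega) n n 0 (by omega) (by omega)
      (fun i j h1 _ h2 => passE h b fun h3 => hn i (j + 1) (by omega) (by omega) h3) T₁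
      (lt_of_lt_of_le ht hT₁)
    refine ⟨T, hT₁.trans hT, fun f hf => ?_⟩
    obtain ⟨F, hF, G, -, r, hr, h1⟩ := hR _ (F0_bc (π := π) (A := A) (CocL.cocA hf))
    obtain ⟨c, hc, hcc, r', hr', h2⟩ := base_coef h.lip (h.mono hT₁) hN (h.ne t ht) hF
    refine ⟨fun l => ε * c l, hc.smul ε, hcc.smul ε, G, fun h0 => by omega, min r r',
      lt_min hr hr', fun l hl hs => ?_⟩
    have h3 := h1 l (by omega) (hs.mono (inter_subset_inter_left _ (h.mono hT₁))
      (min_le_left _ _))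
    rw [aw_F0 f (by intro h; rw [h] at hl; simp at hl),
      h2 l hl (hs.mono subset_rfl (min_le_right _ _))] at h3
    show f l - ε * c (l.map π) = _
    rw [h3]
    ring

/-- **(L2)** -/
theorem Fib.l2 {p q : ℕ} (hb : Bs p) (hf : Fs q)
    (hu : ∀ p' q', p' + q' = p + q → Bs p' → Fs q' → p' = p ∧ q' = q) : ∀ t > 0, ∃ T ≥ t,
    ∀ f g : List E → k, CocL (X T) (p + q) f → CocL (X T) (p + q) g →
      ∃ a b : k, ¬ (a = 0 ∧ b = 0) ∧ ExL (X t ∩ π ⁻¹' A) (p + q) fun l => a * f l + b * g l := by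
  intro t ht
  rcases q with _ | q
  · obtain ⟨T, hT, h0⟩ := coef0 h b (n := p) (fun p' q' h1 h2 h3 =>
      h2 (hu p' q' h1 h3.1 h3.2).2) t ht
    refine ⟨T, hT, fun f g hf hg => ?_⟩
    obtain ⟨c, hc, hcc, he⟩ := h0 f hf
    obtain ⟨c', hc', hcc', he'⟩ := h0 g hg
    obtain ⟨a, a', ha, u, hu0, r, hr, hu1⟩ := b.rk p hb c c' hc hcc hc' hcc'
    have e3 : ExL (X t ∩ π ⁻¹' A) p fun l => a * c (l.map π) + a' * c' (l.map π) := by
      refine ⟨fun l => u (l.map π), fun h0 l => hu0 h0 _, r, hr, fun l hl hs => ?_⟩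
      rw [Sl.dl_map]
      refine hu1 (l.map π) (by rw [List.length_map, hl]) ⟨fun y hy => ?_, fun y hy z hz => ?_⟩
      · obtain ⟨w, hw, rfl⟩ := List.mem_map.1 hy
        exact (hs.1 w hw).2
      · obtain ⟨w, hw, rfl⟩ := List.mem_map.1 hy
        obtain ⟨w', hw', rfl⟩ := List.mem_map.1 hz
        exact (h.lip w w').trans_lt (hs.2 w hw w' hw')
    exact ⟨a, a', ha, exCongr (exAdd (exAdd (exSmul a he) (exSmul a' he')) e3)
      ⟨1, one_pos, fun l _ _ => by ring⟩⟩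
  · obtain ⟨T₁, hT₁, hK⟩ := killE_of h b (p := p + 1) (q := q) (n := p + (q + 1)) (by omega)
      (fun p' q' h1 h2 h3 => by have := (hu p' q' h1 h3.1 h3.2).1; omega) t ht
    obtain ⟨t₀, ht₀, hl⟩ := h.line (q + 1) hf (by omega)
    obtain ⟨T₂, hT₂, v, L, -⟩ := hl (max T₁ t₀) (le_max_right _ _)
    have hT₁' : 0 < T₁ := lt_of_lt_of_le ht hT₁
    obtain ⟨T, hT, ε, hε, hR⟩ := redE (π := π) (A := A) (k := k) h.mono (n := p + (q + 1))
      (p := 0) (q := p + (q + 1)) (by omega) p p (q + 1) (by omega) (by omega)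
      (fun i j h1 _ h2 => passE h b fun h3 => by
        have := (hu i (j + 1) (by omega) h3.1 h3.2).1; omega) T₂
      (lt_of_lt_of_le hT₁' ((le_max_left _ _).trans hT₂))
    refine ⟨T, hT₁.trans ((le_max_left _ _).trans (hT₂.trans hT)), fun f g hf hg => ?_⟩
    exact leray_rk hR rfl L h.lip (h.mono hT₂)
      (h.mono (hT₁.trans (le_max_left _ _))) (hK.mono' (h.mono (le_max_left _ _)))
      (b.rk p hb) (CocL.cocA hf) (CocL.cocA hg)

end

/-! ### Eigenvalues -/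

/-- The difference `θ^* F - a F` of a bicocycle in a line slot of weight `a` is `dE`-exact. -/
theorem eig_core {p q : ℕ} {X₁ X₂ X₂' : Set E} {v : M → List E → k}
    (L : LineB π A X₁ X₂ (q + 1) v) (hX : X₂ ⊆ X₁) (hX₂ : X₂' ⊆ X₂) {θ : E → E}
    (h2 : OpE π X₂' X₂ θ) {a : k} (hv : OpV π A X₂' (q + 1) v θ a)
    {F : Bi k M E} (hF : BC π A X₁ p (q + 1) F) : ∃ Y : Bi k M E, NrmM Y ∧
      BC π A X₂' p (q + 1) (pbE θ F - a • F) ∧
      (pbE θ F - a • F) - dE Y ∈ Zs π A X₂' k (p + 1) (q + 2) := by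
  obtain ⟨g, r₀, hr₀, hg⟩ := hv
  obtain ⟨c, hc, Y, hY, hdY⟩ := L.exists_c hF.n hF.e
  have hBC : BC π A X₂' p (q + 1) (pbE θ F - a • F) := by
    have := ((h2.bc (hF.mono hX)).add ((hF.mono (hX₂.trans hX)).smul (-a)))
    rwa [neg_smul, ← sub_eq_add_neg] at this
  refine ⟨pbE θ Y + ten c g - a • Y, ((hY.pbE θ).add (ten_nrm hc g)).sub (hY.smul a), hBC, ?_⟩
  obtain ⟨ρ, hρ, e1⟩ := h2.mem hdY
  obtain ⟨ρ', hρ', e2⟩ := Zs_mono hX₂ hdY
  refine ⟨min r₀ (min ρ ρ'), lt_min hr₀ (lt_min hρ hρ'), fun xs ws h3 h4 h5 => ?_⟩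
  have e1 := e1 xs ws h3 h4
    (h5.mono subset_rfl ((min_le_right _ _).trans (min_le_left _ _)))
  have e2 := e2 xs ws h3 h4
    (h5.mono subset_rfl ((min_le_right _ _).trans (min_le_right _ _)))
  rcases xs with _ | ⟨x, xs⟩
  · simp at h3
  have e3 := hg x ws (by omega)
    ((h5.mono subset_rfl (min_le_left _ _)).sub (by simp) fun _ h => h)
  have e4 : dE (ten c g) (x :: xs) ws = c (x :: xs) * dl (g x) ws := dE_ten_cons c g x xs ws
  have e1' : F (x :: xs) (ws.map θ) - c (x :: xs) * v x (ws.map θ) -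
      dE Y (x :: xs) (ws.map θ) = 0 := e1
  have e2' : F (x :: xs) ws - c (x :: xs) * v x ws - dE Y (x :: xs) ws = 0 := e2
  rw [map_sub, map_add, map_smul, dE_pbE]
  show (F (x :: xs) (ws.map θ) - a * F (x :: xs) ws) -
    ((dE Y (x :: xs) (ws.map θ) + dE (ten c g) (x :: xs) ws) - a * dE Y (x :: xs) ws) = 0
  rw [e4, ← e3]
  linear_combination e1' - a * e2'

section

variable (h : Fib π A X Ob x₀ θ mθ k Fs w) (b : BaseH k A Bs)

include h in
theorem Fib.le_mul {t : ℝ} (ht : 0 < t) : t ≤ mθ * t := by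
  have := h.one
  nlinarith

include h b

/-- **(L2w)** -/
theorem Fib.l2w (ho : OpN X θ mθ k) {p q : ℕ} (hb : Bs p) (hf : Fs q)
    (hu : ∀ p' q', p' + q' = p + q → Bs p' → Fs q' → p' = p ∧ q' = q) : ∀ t > 0, ∃ T ≥ t,
    mθ * t ≤ T ∧ ∀ f : List E → k, CocL (X T) (p + q) f →
      ExL (X t ∩ π ⁻¹' A) (p + q) fun l => f (l.map (θ t)) - w q * f l := by
  intro t ht
  have hmt := h.le_mul ht
  rcases q with _ | q
  · obtain ⟨T, hT, h0⟩ := coef0 h b (n := p) (fun p' q' h1 h2 h3 =>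
      h2 (hu p' q' h1 h3.1 h3.2).2) (mθ * t) (lt_of_lt_of_le ht hmt)
    refine ⟨T, hmt.trans hT, hT, fun f hf => ?_⟩
    obtain ⟨c, hc, hcc, he⟩ := h0 f hf
    have e1 : ExL (X t ∩ π ⁻¹' A) p fun l => f l - c (l.map π) :=
      he.mono (inter_subset_inter_left _ (h.mono hmt))
    have e2 := exComp (Y' := X t ∩ π ⁻¹' A) he (θ := θ t) fun r hr => (h.op t ht).smL hr
    refine exCongr (exAdd e2 (exSmul (-1) e1)) ⟨1, one_pos, fun l hl hs => ?_⟩
    have e3 : (l.map (θ t)).map π = l.map π := by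
      rw [List.map_map]
      exact List.map_congr_left fun u hu => (h.op t ht).pi u (hs.1 u hu).1
    simp only [h.w0, e3]
    ring
  · obtain ⟨T₁, hT₁, hK⟩ := killE_of h b (p := p + 1) (q := q) (n := p + (q + 1)) (by omega)
      (fun p' q' h1 h2 h3 => by have := (hu p' q' h1 h3.1 h3.2).1; omega) t ht
    have hT₁' : 0 < T₁ := lt_of_lt_of_le ht hT₁
    have hmT := h.le_mul hT₁'
    obtain ⟨t₀, ht₀, hl⟩ := h.line (q + 1) hf (by omega)
    obtain ⟨T₂, hT₂, v, L, hv⟩ := hl (max (mθ * T₁) t₀) (le_max_right _ _)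
    have hle : T₁ ≤ max (mθ * T₁) t₀ := hmT.trans (le_max_left _ _)
    obtain ⟨T, hT, ε, hε, hR⟩ := redE (π := π) (A := A) (k := k) h.mono (n := p + (q + 1))
      (p := 0) (q := p + (q + 1)) (by omega) p p (q + 1) (by omega) (by omega)
      (fun i j h1 _ h2 => passE h b fun h3 => by
        have := (hu i (j + 1) (by omega) h3.1 h3.2).1; omega) T₂
      (lt_of_lt_of_le hT₁' (hle.trans hT₂))
    refine ⟨max T (mθ * T₁), hT₁.trans (hmT.trans (le_max_right _ _)),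
      (mul_le_mul_of_nonneg_left hT₁ (by linarith [h.one])).trans (le_max_right _ _),
      fun f hf => ?_⟩
    obtain ⟨F, hF, G, -, r, hr, h1⟩ := hR _
      (F0_bc (π := π) (A := A) (CocL.cocA (Sl.CocL.mono hf (h.mono (le_max_left _ _)))))
    have hop : OpE π (X T₁) (X (max (mθ * T₁) t₀)) (θ T₁) :=
      ⟨fun u hu => h.mono (le_max_left _ _) ((h.op T₁ hT₁').maps hu), (h.op T₁ hT₁').uc,
        (h.op T₁ hT₁').pi⟩
    obtain ⟨Y, hY, hBC, hd⟩ := eig_core L (h.mono hT₂) (h.mono hle) hop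
      (hv T₁ hT₁' (le_max_left _ _)) hF
    obtain ⟨r₁, hr₁, h2⟩ := aw_step h.lip hd
    obtain ⟨G₂, -, -, r₂, hr₂, h3⟩ := hK _ (hBC.next subset_rfl hY hd)
    obtain ⟨r₃, hr₃, h4⟩ := hop.smL (A := A) hr
    have e1 : ExL (X t ∩ π ⁻¹' A) (p + (q + 1)) fun l =>
        f (l.map (θ T₁)) - w (q + 1) * f l := by
      refine ⟨fun l => (G (l.map (θ T₁)) + -w (q + 1) * G l) +
        ε * ((-1 : k) ^ p * aw π p Y l + -(-1 : k) ^ p * G₂ l), fun h0 => by omega,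
        min (min r r₁) (min r₂ r₃), lt_min (lt_min hr hr₁) (lt_min hr₂ hr₃),
        fun l hl hs => ?_⟩
      have s0 : X t ∩ π ⁻¹' A ⊆ X T₁ ∩ π ⁻¹' A := inter_subset_inter_left _ (h.mono hT₁)
      have s1 := hs.mono (s0.trans (inter_subset_inter_left _ (h.mono (hle.trans hT₂))))
        ((min_le_left (min r r₁) (min r₂ r₃)).trans (min_le_left _ _))
      have s2 := hs.mono s0 ((min_le_left (min r r₁) (min r₂ r₃)).trans (min_le_right _ _))
      have s3 := hs.mono subset_rfl ((min_le_right (min r r₁) (min r₂ r₃)).trans (min_le_left _ _))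
      have s4 := h4 l (hs.mono s0 ((min_le_right (min r r₁) (min r₂ r₃)).trans (min_le_right _ _)))
      have hne : l ≠ [] := by intro h; rw [h] at hl; simp at hl
      have e1 := h1 l (by omega) s1
      have e2 := h1 (l.map (θ T₁)) (by rw [List.length_map]; omega)
        (s4.mono (inter_subset_inter_left _ (h.mono hT₂)) le_rfl)
      rw [aw_F0 f hne] at e1
      rw [aw_F0 f (by simpa using hne), hop.aw F fun u hu => (h.mono hT₁) (hs.1 u hu).1] at e2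
      have e3 := h2 l (by omega) s2
      have e4 := h3 l (by omega) s3
      have e5 : aw π p (pbE (θ T₁) F - w (q + 1) • F) l =
        aw π p (pbE (θ T₁) F) l - w (q + 1) * aw π p F l := rfl
      rw [e5, e4] at e3
      have e6 : dl (fun l => ε * ((-1 : k) ^ p * aw π p Y l + -(-1 : k) ^ p * G₂ l)) l =
          ε * (dl (fun l => (-1 : k) ^ p * aw π p Y l) l + -(-1 : k) ^ p * dl G₂ l) := by
        rw [dl_mul_left, Sl.dl_add, dl_mul_left (-(-1 : k) ^ p)]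
      rw [Sl.dl_add, e6, Sl.dl_add, Sl.dl_map, dl_mul_left]
      show f (l.map (θ T₁)) - w (q + 1) * f l = _
      rw [e1, e2]
      linear_combination ε * e3
    have e2 := (ho t ht T₁ hT₁ _ f (hf.mono (h.mono (le_max_right _ _)))).mono
      (inter_subset_left (s := X t) (t := π ⁻¹' A))
    exact exCongr (exAdd e1 (exSmul (-1) e2)) ⟨1, one_pos, fun l _ _ => by ring⟩

omit b in
/-- The eigenvalue on the fibre over `x₀`. -/
theorem fib_eig {q : ℕ} (hf : Fs q) (hq : q ≠ 0) : ∀ t > 0, ∃ T ≥ t, ∀ V : M → List E → k,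
    FamV π A (X T) q V → ∀ s > 0, mθ * s ≤ t →
      ExL (Ob s) q fun l => V x₀ (l.map (θ s)) - w q * V x₀ l := by
  intro t ht
  obtain ⟨t₀, ht₀, hl⟩ := h.line q hf hq
  obtain ⟨T, hT, v, L, hv⟩ := hl (max t t₀) (le_max_right _ _)
  refine ⟨T, (le_max_left _ _).trans hT, fun V hV s hs hst => ?_⟩
  obtain ⟨r₁, hr₁, h1⟩ := hV.coc
  obtain ⟨r₂, hr₂, h2⟩ := L.span r₁ hr₁
  obtain ⟨c, g, h3⟩ := h2 x₀ [] ⟨fun y hy => by
    rw [List.mem_singleton.1 hy]; exact h.mem, fun y hy z hz => by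
    rw [List.mem_singleton.1 hy, List.mem_singleton.1 hz, dist_self]; exact hr₂⟩ (V x₀)
    fun ws h4 h5 => h1 x₀ ws h4 h5
  obtain ⟨g', r₃, hr₃, h4⟩ := hv s hs (hst.trans (le_max_left _ _))
  have hms := h.le_mul hs
  have hop := h.op s hs
  obtain ⟨δ, hδ, h5⟩ := hop.dom (A := A) hr₂
  have dom : ∀ {ρ : ℝ}, 0 < ρ → ∀ l, SmL (Ob s) ρ l → Dom π A (X s) ρ [x₀] l := by
    intro ρ hρ l hl
    refine ⟨⟨fun y hy => ?_, fun y hy z hz => ?_⟩, ⟨fun w hw => ((h.ob s w).1 (hl.1 w hw)).1,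
      hl.2⟩, fun y hy w hw => ?_⟩
    · rw [List.mem_singleton.1 hy]; exact h.mem
    · rw [List.mem_singleton.1 hy, List.mem_singleton.1 hz, dist_self]; exact hρ
    · rw [List.mem_singleton.1 hy, ((h.ob s w).1 (hl.1 w hw)).2, dist_self]; exact hρ
  refine ⟨fun l => (g (l.map (θ s)) + -w q * g l) + c * g' x₀ l, fun h0 => absurd h0 hq,
    min (min r₂ δ) r₃, lt_min (lt_min hr₂ hδ) hr₃, fun l hl hs' => ?_⟩
  have d0 := dom (lt_min (lt_min hr₂ hδ) hr₃) l hs'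
  have d1 := d0.mono subset_rfl ((min_le_left (min r₂ δ) r₃).trans (min_le_left _ _))
  have d2 := d0.mono subset_rfl ((min_le_left (min r₂ δ) r₃).trans (min_le_right _ _))
  have d3 := d0.mono subset_rfl (min_le_right (min r₂ δ) r₃)
  have e1 := h3 l hl (d1.mono (h.mono (hms.trans (hst.trans (le_max_left _ _)))) le_rfl)
  have e2 := h3 (l.map (θ s)) (by rw [List.length_map, hl])
    ((h5 _ _ d2).mono (h.mono (hst.trans (le_max_left _ _))) le_rfl)
  have e3 := h4 x₀ l hl d3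
  rw [Sl.dl_add, Sl.dl_add, Sl.dl_map, dl_mul_left, dl_mul_left]
  show V x₀ (l.map (θ s)) - w q * V x₀ l = _
  rw [e1, e2]
  linear_combination c * e3

/-- Descent of an obstruction through the slots. -/
theorem descend {n : ℕ} (hn : n ≠ 0) : ∀ j p, p + j = n + 1 → 2 ≤ p →
    (∀ p' q', p' + q' = n + 1 → p ≤ p' → Bs p' → Fs q' → w q' ≠ w n) →
    ∀ t > 0, ∃ T ≥ t, ∀ V₀ : List E → k,
      (∀ s > 0, mθ * s ≤ T → ExL (Ob s) n fun l => V₀ (l.map (θ s)) - w n * V₀ l) →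
      ∀ (W : List E → k) (F : Bi k M E) (ε μ : k), μ ≠ 0 → Obs π A (X T) n p j W F ε →
      (ExL (Ob T) n fun l => W l - μ * V₀ l) →
      ∃ (Z : List E → k) (μ' : k), μ' ≠ 0 ∧ CocL (X t ∩ π ⁻¹' A) n Z ∧ ExL (Ob t) n fun l => Z l - μ' * V₀ l := by
  have obmono : ∀ {s t : ℝ}, s ≤ t → Ob s ⊆ Ob t := fun hst w hw =>
    (h.ob _ w).2 ⟨h.mono hst ((h.ob _ w).1 hw).1, ((h.ob _ w).1 hw).2⟩
  have obsm : ∀ {s : ℝ}, 0 < s → ∀ r > 0, ∃ δ > 0, ∀ l, SmL (Ob s) δ l →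
      SmL (Ob (mθ * s)) r (l.map (θ s)) := by
    intro s hs r hr
    obtain ⟨δ, hδ, hu⟩ := (h.op s hs).uc r hr
    refine ⟨δ, hδ, fun l hl => ⟨fun y hy => ?_, fun y hy z hz => ?_⟩⟩
    · obtain ⟨u, h1, rfl⟩ := List.mem_map.1 hy
      have h2 := (h.ob s u).1 (hl.1 u h1)
      exact (h.ob _ _).2 ⟨(h.op s hs).maps h2.1, ((h.op s hs).pi u h2.1).trans h2.2⟩
    · obtain ⟨u, h1, rfl⟩ := List.mem_map.1 hy
      obtain ⟨u', h2, rfl⟩ := List.mem_map.1 hz
      exact hu u ((h.ob s u).1 (hl.1 u h1)).1 u' ((h.ob s u').1 (hl.1 u' h2)).1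
        (hl.2 u h1 u' h2)
  have vert : ∀ {s : ℝ} {l : List E}, (∀ u ∈ l, u ∈ Ob s) → ∀ u ∈ l, ∀ u' ∈ l, π u = π u' :=
    fun {s l} hl u hu u' hu' => by
      rw [((h.ob s u).1 (hl u hu)).2, ((h.ob s u').1 (hl u' hu')).2]
  intro j
  induction j with
  | zero =>
    intro p hp hp2 hw t ht
    have hpn : p = n + 1 := by omega
    subst hpn
    by_cases hb : Bs (n + 1)
    · have hw0 := hw (n + 1) 0 (by omega) le_rfl hb h.f0
      have hmt := h.le_mul ht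
      obtain ⟨T, hT, hN⟩ := h.zero (mθ * t) (lt_of_lt_of_le ht hmt)
      refine ⟨T, hmt.trans hT, fun V₀ hV₀ W F ε μ hμ hO hW => ?_⟩
      obtain ⟨c, hc, hcc, r, hr, h1⟩ := base_coef h.lip (h.mono hT) hN
        (h.ne _ (lt_of_lt_of_le ht hmt)) hO.bc
      obtain ⟨r', hr', h2⟩ := hO.eq
      have hop := h.op t ht
      obtain ⟨δ, hδ, h3⟩ := hop.smL (A := A) (lt_min hr hr')
      refine ⟨fun l => W (l.map (θ t)) + -1 * W l, μ * (w n - 1), mul_ne_zero hμ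
        (sub_ne_zero.2 fun h' => hw0 (by rw [h.w0, h'])), ?_, ?_⟩
      · refine ⟨min δ (min r r'), lt_min hδ (lt_min hr hr'), fun l hl hs => ?_⟩
        have s1 := h3 l (hs.mono subset_rfl (min_le_left _ _))
        have s2 := hs.mono (inter_subset_inter_left _ (h.mono hmt)) (min_le_right _ _)
        have e1 := h2 l hl ((s2.mono subset_rfl (min_le_right _ _)).mono
          (inter_subset_inter_left _ (h.mono hT)) le_rfl)
        have e2 := h2 (l.map (θ t)) (by rw [List.length_map, hl])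
          ((s1.mono subset_rfl (min_le_right _ _)).mono
            (inter_subset_inter_left _ (h.mono hT)) le_rfl)
        rw [h1 l hl (s2.mono subset_rfl (min_le_left _ _))] at e1
        rw [h1 _ (by rw [List.length_map, hl]) (s1.mono subset_rfl (min_le_left _ _))] at e2
        have e3 : (l.map (θ t)).map π = l.map π := by
          rw [List.map_map]
          exact List.map_congr_left fun u hu => hop.pi u (hs.1 u hu).1
        rw [Sl.dl_add, Sl.dl_map, dl_mul_left, e1, e2, e3]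
        ring
      · have a1 := exComp (hW.mono (obmono hT)) (obsm ht)
        have a2 := hW.mono (obmono (hmt.trans hT))
        have a3 := hV₀ t ht hT
        exact exCongr (exAdd (exAdd a1 (exSmul (-1) a2)) (exSmul μ a3))
          ⟨1, one_pos, fun l _ _ => by ring⟩
    · obtain ⟨T, hT, hK⟩ := killE_zero h b hb t ht
      refine ⟨T, hT, fun V₀ hV₀ W F ε μ hμ hO hW => ?_⟩
      obtain ⟨Z, hZ, hZW⟩ := hO.kill (by omega) hp2 (h.mono hT) hK
      refine ⟨Z, μ, hμ, hZ, exCongr (hW.mono (obmono hT)) ⟨1, one_pos, fun l hl hs => ?_⟩⟩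
      rw [hZW l hl (vert hs.1)]
  | succ j ih =>
    intro p hp hp2 hw t ht
    obtain ⟨T₁, hT₁, h1⟩ := ih (p + 1) (by omega) (by omega)
      (fun p' q' h2 h3 => hw p' q' h2 (by omega)) t ht
    have hT₁' : 0 < T₁ := lt_of_lt_of_le ht hT₁
    by_cases hbf : Bs p ∧ Fs (j + 1)
    · have hwj := hw p (j + 1) (by omega) le_rfl hbf.1 hbf.2
      have hmT := h.le_mul hT₁'
      obtain ⟨t₀, ht₀, hl⟩ := h.line (j + 1) hbf.2 (by omega)
      obtain ⟨T₂, hT₂, v, L, hv⟩ := hl (max (mθ * T₁) t₀) (le_max_right _ _)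
      have hle : T₁ ≤ max (mθ * T₁) t₀ := hmT.trans (le_max_left _ _)
      have hm2 : mθ * T₁ ≤ T₂ := (le_max_left _ _).trans hT₂
      refine ⟨T₂, hT₁.trans (hle.trans hT₂), fun V₀ hV₀ W F ε μ hμ hO hW => ?_⟩
      have hop : OpE π (X T₁) (X (max (mθ * T₁) t₀)) (θ T₁) :=
        ⟨fun u hu => h.mono (le_max_left _ _) ((h.op T₁ hT₁').maps hu), (h.op T₁ hT₁').uc,
          (h.op T₁ hT₁').pi⟩
      have hop' : OpE π (X T₁) (X T₂) (θ T₁) :=
        ⟨fun u hu => h.mono hT₂ (hop.maps hu), hop.uc, hop.pi⟩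
      obtain ⟨W', F', hO', hW'⟩ := hO.eig L h.lip (h.mono (hle.trans hT₂)) (h.mono hle)
        subset_rfl hop' hop (hv T₁ hT₁' (le_max_left _ _)) (by omega) hp2
      refine h1 V₀ (fun s hs hs' => hV₀ s hs (hs'.trans (hle.trans hT₂))) W' F' _
        (μ * (w n - w (j + 1))) (mul_ne_zero hμ (sub_ne_zero.2 (Ne.symm hwj))) hO' ?_
      have a1 := exComp (hW.mono (obmono hm2)) (obsm hT₁')
      have a2 := hW.mono (obmono (hle.trans hT₂))
      have a3 := hV₀ T₁ hT₁' hm2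
      refine exCongr (exAdd (exAdd a1 (exSmul (-w (j + 1)) a2)) (exSmul μ a3))
        ⟨1, one_pos, fun l hl hs => ?_⟩
      rw [hW' l hl (vert hs.1)]
      ring
    · obtain ⟨T₂, hT₂, hS⟩ := passE h b hbf T₁ hT₁'
      refine ⟨T₂, hT₁.trans hT₂, fun V₀ hV₀ W F ε μ hμ hO hW => ?_⟩
      obtain ⟨W', F', hO', hW'⟩ := hO.red (by omega) hp2 (h.mono hT₂) hS.red (by omega)
      refine h1 V₀ (fun s hs hs' => hV₀ s hs (hs'.trans hT₂)) W' F' _ μ hμ hO' ?_
      refine exCongr (hW.mono (obmono hT₂)) ⟨1, one_pos, fun l hl hs => ?_⟩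
      rw [hW' l hl (vert hs.1)]

/-- **(L3)** -/
theorem Fib.l3 {q : ℕ} (hq : q ≠ 0) (hf : Fs q)
    (hw : ∀ p' q', p' + q' = q + 1 → 2 ≤ p' → Bs p' → Fs q' → w q' ≠ w q) : ∀ t > 0, ∃ T ≥ t,
    ∀ y : List E → k, CocL (Ob T) q y → ∃ f : List E → k, CocL (X t ∩ π ⁻¹' A) q f ∧
      ExL (Ob t) q fun l => f l - y l := by
  intro t ht
  obtain ⟨q, rfl⟩ : ∃ j, q = j + 1 := ⟨q - 1, by omega⟩
  obtain ⟨T₁, hT₁, h1⟩ := descend h b (n := q + 1) (by omega) q 2 (by omega) le_rfl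
    (fun p' q' h2 h3 => hw p' q' h2 h3) t ht
  have hT₁' : 0 < T₁ := lt_of_lt_of_le ht hT₁
  obtain ⟨T₂, hT₂, h2⟩ := fib_eig h hf hq T₁ hT₁'
  have hT₂' : 0 < T₂ := lt_of_lt_of_le hT₁' hT₂
  obtain ⟨T, hT, h3⟩ := h.fam (q + 1) hq T₂ hT₂'
  have obmono : ∀ {s t : ℝ}, s ≤ t → Ob s ⊆ Ob t := fun hst w hw =>
    (h.ob _ w).2 ⟨h.mono hst ((h.ob _ w).1 hw).1, ((h.ob _ w).1 hw).2⟩
  refine ⟨T, hT₁.trans (hT₂.trans hT), fun y hy => ?_⟩
  obtain ⟨V, hV, hVy⟩ := h3 y hy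
  obtain ⟨W, F, hO, hW⟩ := (hV.mono (h.mono hT₂)).obs h.lip
  have hW0 : ExL (Ob T₁) (q + 1) fun l => W l - 1 * V x₀ l := by
    refine ⟨fun _ => 0, fun _ _ => rfl, 1, one_pos, fun l hl hs => ?_⟩
    have hl' : ∀ u ∈ l, π u = x₀ := fun u hu => ((h.ob _ u).1 (hs.1 u hu)).2
    rw [dl_zero_fun]
    show W l - 1 * V x₀ l = 0
    rw [hW l hl fun u hu u' hu' => by rw [hl' u hu, hl' u' hu']]
    rcases l with _ | ⟨u, l⟩
    · simp at hl
    · show V (π u) (u :: l) - 1 * V x₀ (u :: l) = 0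
      rw [hl' u (by simp)]
      ring
  obtain ⟨Z, μ, hμ, hZ, hZV⟩ := h1 (V x₀) (fun s hs hs' => h2 V hV s hs hs') W F 1 1 one_ne_zero
    hO hW0
  refine ⟨fun l => μ⁻¹ * Z l, CocL.smul μ⁻¹ hZ, ?_⟩
  refine exCongr (exAdd (exSmul μ⁻¹ hZV) (hVy.mono (obmono (hT₁.trans hT₂))))
    ⟨1, one_pos, fun l _ _ => ?_⟩
  have e : μ⁻¹ * (Z l - μ * V x₀ l) + (V x₀ l - y l) = μ⁻¹ * Z l - (μ⁻¹ * μ) * V x₀ l +
      (V x₀ l - y l) := by ring
  show μ⁻¹ * Z l - y l = μ⁻¹ * (Z l - μ * V x₀ l) + (V x₀ l - y l)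
  rw [e, inv_mul_cancel₀ hμ]
  ring

end

end Vale.Agent.P216.E2L
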