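import Vale.Agent.P216.E2L.Fin
import Vale.Agent.P216.H894.FamE2

/-!
# `E2Lev` from the fibre step and the base
-/

set_option linter.all false

open Set BoundedContinuousFunction

namespace Vale.Agent.P216.E2L

open Sl PS Vale.Agent.P216.MV337

variable {k : Type} [Field k] {M : Type} [MetricSpace M] {x₀ : M} {Bs Fs : ℕ → Prop}
  {w : ℕ → k} {c : ℝ} {θ : ℝ → (ℝ →ᵇ M) → (ℝ →ᵇ M)}

/-- **The outputs of the Leray zigzag for the free loops.** -/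
theorem e2Lev_of (h : Fib (fun w : ℝ →ᵇ M => w 0) univ (FL M) (P x₀ x₀) x₀ θ c k Fs w)
    (b : BaseH k (univ : Set M) Bs) (ho : OpN (FL M) θ c k) :
    H894.E2Lev k M x₀ Bs Fs w c θ := by
  have e : ∀ Y : Set (ℝ →ᵇ M), Y ∩ (fun w : ℝ →ᵇ M => w 0) ⁻¹' univ = Y := fun Y => by
    rw [preimage_univ, inter_univ]
  refine ⟨fun n hn t ht => ?_, fun p q hp hq hu t ht => ?_, fun p q hp hq hu t ht => ?_,
    fun q hq hf hw t ht => ?_⟩
  · obtain ⟨T, hT, h1⟩ := h.l1 b (n := n) (fun p q h1 h2 => hn p q h2.1 h2.2 h1) t ht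
    exact ⟨T, hT, fun f _ hf => by have := h1 f hf; rwa [e] at this⟩
  · obtain ⟨T, hT, h1⟩ := h.l2 b hp hq (fun p' q' h1 h2 h3 => hu p' q' h2 h3 h1) t ht
    refine ⟨T, hT, fun f g _ _ hf hg => ?_⟩
    obtain ⟨a, a', ha, h2⟩ := h1 f g hf hg
    rw [e] at h2
    exact ⟨a, a', by tauto, h2⟩
  · obtain ⟨T, hT, hcT, h1⟩ := h.l2w b ho hp hq (fun p' q' h1 h2 h3 => hu p' q' h2 h3 h1) t ht
    exact ⟨T, hT, hcT, fun f _ hf => by have := h1 f hf; rwa [e] at this⟩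
  · obtain ⟨T, hT, h1⟩ := h.l3 b hq hf (fun p' q' h1 h2 h3 h4 => hw p' q' h3 h4 (by omega) h1)
      t ht
    refine ⟨T, hT, fun y _ hy => ?_⟩
    obtain ⟨f, hf, h2⟩ := h1 y hy
    rw [e] at hf
    exact ⟨f, hf, h2⟩

end Vale.Agent.P216.E2L
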