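import Vale.Agent.P216.H754.Norm
import Vale.Agent.P216.V1.Defs

/-!
# Linear algebra of list chains, for cochains with values in a module (P216-V)

`C` (chains on the small lists of a smaller level / scale), `D'` (chains on a larger one).
`c = sum_a v_a(c) z_a + s (bd c) + bd (s' c)` for `c ∈ C`. Hence module valued cochains: a cocycle
which kills the cycles is exact, and every cocycle is `sum_a v_a F(z_a)` modulo exact ones.
-/

open Finsupp

namespace Vale.Agent.P216.E2L

open Vale.Agent.P216.Sl

/-- A linear pseudo-inverse on a submodule. -/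
theorem exists_sec {k V W : Type*} [Field k] [AddCommGroup V] [Module k V] [AddCommGroup W]
    [Module k W] (φ : V →ₗ[k] W) (N : Submodule k V) :
    ∃ s : W →ₗ[k] V, (∀ w, s w ∈ N) ∧ ∀ c ∈ N, φ (s (φ c)) = φ c := by
  set ψ : N →ₗ[k] W := φ ∘ₗ N.subtype with hψ
  obtain ⟨r, hr⟩ := LinearMap.exists_rightInverse_of_surjective ψ.rangeRestrict
    (LinearMap.range_rangeRestrict ψ)
  obtain ⟨g, hg⟩ := LinearMap.exists_extend r
  refine ⟨N.subtype ∘ₗ g, fun w => (g w).2, fun c hc => ?_⟩
  have h1 : φ c ∈ LinearMap.range ψ := ⟨⟨c, hc⟩, rfl⟩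
  have h2 : g (φ c) = r ⟨φ c, h1⟩ := by rw [← hg]; rfl
  have h3 := LinearMap.congr_fun hr ⟨φ c, h1⟩
  have h4 := congrArg Subtype.val h3
  change φ (g (φ c)).1 = φ c
  rw [h2]
  exact h4

variable {k : Type} [Field k] {α : Type}

/-- **The splitting.** -/
theorem exists_split (C D' : Submodule k (Ch k α)) :
    ∃ (ι : Type) (z : ι → Ch k α) (v : Ch k α →ₗ[k] ι →₀ k) (s s' : Ch k α →ₗ[k] Ch k α),
      (∀ a, z a ∈ C ∧ bd (z a) = 0) ∧ (∀ c, s c ∈ C) ∧ (∀ c, s' c ∈ D') ∧
      (∀ c ∈ C, c = linearCombination k z (v c) + s (bd c) + bd (s' c)) ∧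
      (∀ a, v (z a) = single a 1) ∧ (∀ c ∈ C, c ∈ D'.map bd → v c = 0) := by
  classical
  obtain ⟨s, hs, hs'⟩ := exists_sec (bd : Ch k α →ₗ[k] Ch k α) C
  obtain ⟨t, ht, ht'⟩ := exists_sec (bd : Ch k α →ₗ[k] Ch k α) D'
  -- the cycles of `C`
  set Z : Submodule k (Ch k α) := C ⊓ LinearMap.ker bd with hZ
  set ψ : Z →ₗ[k] (Ch k α ⧸ D'.map bd) := (D'.map bd).mkQ ∘ₗ Z.subtype with hψ
  let b := Module.Basis.ofVectorSpace k (LinearMap.range ψ)
  have hz : ∀ a, ∃ z : Z, ψ z = b a := fun a => (b a).2
  choose z hz using hz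
  -- the projection to the cycles, defined everywhere
  have hπ : ∀ c ∈ C, c - s (bd c) ∈ Z := fun c hc =>
    Submodule.mem_inf.2 ⟨C.sub_mem hc (hs _), LinearMap.mem_ker.2 (by
      rw [map_sub, hs' c hc, sub_self])⟩
  let π : C →ₗ[k] Z := LinearMap.codRestrict Z ((LinearMap.id - s ∘ₗ bd) ∘ₗ C.subtype)
    fun c => hπ c c.2
  let v0 : C →ₗ[k] (Module.Basis.ofVectorSpaceIndex k (LinearMap.range ψ)) →₀ k :=
    (b.repr : _ →ₗ[k] _) ∘ₗ ψ.rangeRestrict ∘ₗ π
  obtain ⟨v, hv⟩ := LinearMap.exists_extend v0
  have hv' : ∀ c (hc : c ∈ C), v c = b.repr (ψ.rangeRestrict (π ⟨c, hc⟩)) := fun c hc =>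
    LinearMap.congr_fun hv ⟨c, hc⟩
  have hZC : ∀ c ∈ Z, c ∈ C := fun c hc => hc.1
  have hπZ : ∀ c (hc : c ∈ Z), π ⟨c, hZC c hc⟩ = ⟨c, hc⟩ := fun c hc => by
    apply Subtype.ext
    change c - s (bd c) = c
    rw [LinearMap.mem_ker.1 hc.2, map_zero, sub_zero]
  refine ⟨_, fun a => (z a : Ch k α), v, s,
    t ∘ₗ (LinearMap.id - s ∘ₗ bd - linearCombination k (fun a => (z a : Ch k α)) ∘ₗ v),
    fun a => ⟨(z a).2.1, (z a).2.2⟩, hs, fun c => ht _, fun c hc => ?_, fun a => ?_,
    fun c hc hc' => ?_⟩
  · -- the formula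
    have h1 : c - s (bd c) - linearCombination k (fun a => (z a : Ch k α)) (v c) ∈ D'.map bd := by
      refine (Submodule.Quotient.mk_eq_zero _).1 ?_
      change (D'.map bd).mkQ _ = 0
      rw [map_sub]
      have h2 : (D'.map bd).mkQ (c - s (bd c)) = (ψ.rangeRestrict (π ⟨c, hc⟩)).1 := rfl
      have h3 : (D'.map bd).mkQ (linearCombination k (fun a => (z a : Ch k α)) (v c)) =
          ((LinearMap.range ψ).subtype (linearCombination k b (v c))) := by
        rw [LinearMap.map_finsupp_linearCombination, LinearMap.map_finsupp_linearCombination]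
        congr 1
        congr 1
        funext a
        exact hz a
      rw [h2, h3, hv' c hc, b.linearCombination_repr, sub_eq_zero]
      rfl
    obtain ⟨y, hy, hy'⟩ := h1
    have h4 : bd (t (c - s (bd c) - linearCombination k (fun a => (z a : Ch k α)) (v c))) =
        c - s (bd c) - linearCombination k (fun a => (z a : Ch k α)) (v c) := by
      have h5 := ht' y hy
      rw [hy'] at h5
      exact h5
    change c = linearCombination k (fun a => (z a : Ch k α)) (v c) + s (bd c) +
      bd (t (c - s (bd c) - linearCombination k (fun a => (z a : Ch k α)) (v c)))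
    rw [h4]
    abel
  · rw [hv' _ (z a).2.1, hπZ _ (z a).2]
    have h1 : ψ.rangeRestrict ⟨(z a : Ch k α), (z a).2⟩ = b a := Subtype.ext (hz a)
    rw [h1, b.repr_self]
  · obtain ⟨y, hy, hy'⟩ := hc'
    have hcZ : c ∈ Z := Submodule.mem_inf.2 ⟨hc, LinearMap.mem_ker.2 (by
      rw [← hy']
      exact bd_bd y)⟩
    rw [hv' c hc, hπZ c hcZ]
    have h1 : ψ.rangeRestrict ⟨c, hcZ⟩ = 0 := by
      apply Subtype.ext
      exact (Submodule.Quotient.mk_eq_zero _).2 ⟨y, hy, hy'⟩
    rw [h1, map_zero]

/-! ### Cochains with values in a module -/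

section Mod

variable {L : Type*} [AddCommGroup L] [Module k L]

/-- Evaluation of a module valued cochain. -/
noncomputable def evL (k : Type) [Field k] {α : Type} {L : Type*} [AddCommGroup L] [Module k L]
    (F : List α → L) : Ch k α →ₗ[k] L := Finsupp.linearCombination k F

@[simp] theorem evL_single (F : List α → L) (l : List α) (r : k) :
    evL k F (single l r) = r • F l := by
  simp [evL, Finsupp.linearCombination_single]

/-- Two linear maps which agree on the lists of `P` agree on the chains of `P`. -/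
theorem eq_of_memL {P : List α → Prop} {F G : Ch k α →ₗ[k] L}
    (h : ∀ l, P l → F (single l (1 : k)) = G (single l (1 : k)))
    {c : Ch k α} (hc : c ∈ Sp k P) : F c = G c := by
  have h1 : Sp k P ≤ LinearMap.eqLocus F G := by
    rw [Sp, Finsupp.supported_eq_span_single]
    refine Submodule.span_le.2 ?_
    rintro _ ⟨l, hl, rfl⟩
    exact h l hl
  exact h1 hc

theorem evL_congr {P : List α → Prop} {F G : List α → L} (h : ∀ l, P l → F l = G l) {c : Ch k α}
    (hc : c ∈ Sp k P) : evL k F c = evL k G c :=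
  eq_of_memL (fun l hl => by rw [evL_single, evL_single, h l hl]) hc

theorem evL_zero_of {P : List α → Prop} {F : List α → L} (h : ∀ l, P l → F l = 0) {c : Ch k α}
    (hc : c ∈ Sp k P) : evL k F c = 0 := by
  have := eq_of_memL (F := evL k F) (G := 0) (fun l hl => by rw [evL_single, h l hl]; simp) hc
  simpa using this

theorem evL_add (F G : List α → L) (c : Ch k α) :
    evL k (fun l => F l + G l) c = evL k F c + evL k G c := by
  simp [evL, Finsupp.linearCombination_apply, Finsupp.sum, smul_add, Finset.sum_add_distrib]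

theorem evL_sub (F G : List α → L) (c : Ch k α) :
    evL k (fun l => F l - G l) c = evL k F c - evL k G c := by
  simp [evL, Finsupp.linearCombination_apply, Finsupp.sum, smul_sub, Finset.sum_sub_distrib]

/-- Linear maps on the values. -/
theorem map_evL {L' : Type*} [AddCommGroup L'] [Module k L'] (φ : L →ₗ[k] L') (F : List α → L)
    (c : Ch k α) : φ (evL k F c) = evL k (fun l => φ (F l)) c := by
  simp [evL, Finsupp.linearCombination_apply, Finsupp.sum, map_sum]

theorem evL_cons (F : List α → L) (x : α) (c : Ch k α) :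
    evL k F (cons x c) = evL k (fun l => F (x :: l)) c := by
  have h : c ∈ Sp k (fun _ : List α => True) := by simp [Sp]
  exact eq_of_memL (F := evL k F ∘ₗ cons x) (G := evL k (fun l => F (x :: l)))
    (fun l _ => by simp) h

theorem evL_mp {β : Type} (F : List β → L) (g : α → β) (c : Ch k α) :
    evL k F (mp g c) = evL k (fun l => F (l.map g)) c := by
  have h : c ∈ Sp k (fun _ : List α => True) := by simp [Sp]
  exact eq_of_memL (F := evL k F ∘ₗ mp g) (G := evL k (fun l => F (l.map g)))
    (fun l _ => by simp) h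

/-- The coboundary of a module valued cochain. -/
noncomputable def dlL (k : Type) [Field k] {α : Type} {L : Type*} [AddCommGroup L] [Module k L]
    (F : List α → L) (l : List α) : L := evL k F (bdL l)

theorem evL_dlL (F : List α → L) (c : Ch k α) : evL k (dlL k F) c = evL k F (bd c) := by
  have h : c ∈ Sp k (fun _ : List α => True) := by simp [Sp]
  exact eq_of_memL (F := evL k (dlL k F)) (G := evL k F ∘ₗ bd)
    (fun l _ => by simp [dlL]) h

theorem dlL_cons (F : List α → L) (x : α) (l : List α) :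
    dlL k F (x :: l) = F l - dlL k (fun l' => F (x :: l')) l := by
  rw [dlL, bdL_cons, map_sub, evL_single, one_smul, evL_cons]
  rfl

theorem bl_eq_dlL [PseudoMetricSpace α] {L : Type*} [AddCommGroup L] [Module ℝ L] (F : List α → L) (l : List α) :
    V1.bl F l = dlL ℝ F l := by
  induction l generalizing F with
  | nil => simp [dlL, bdL_nil]
  | cons x l ih => rw [V1.bl_cons, ih, dlL_cons]

/-- A cochain which vanishes on cycles is exact, linearly in the cochain. -/
theorem exists_prim (P : List α → Prop) : ∃ s : List α → Ch k α, (∀ l, s l ∈ Sp k P) ∧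
    ∀ {L : Type*} [AddCommGroup L] [Module k L] (F : List α → L),
      (∀ z ∈ Sp k P, bd z = 0 → evL k F z = 0) →
      ∀ l, P l → F l = dlL k (fun l' => evL k F (s l')) l := by
  obtain ⟨s, hs, hs'⟩ := exists_sec (bd : Ch k α →ₗ[k] Ch k α) (Sp k P)
  refine ⟨fun l => s (single l 1), fun l => hs _, fun F hF l hl => ?_⟩
  have hm : single l (1 : k) ∈ Sp k P := single_mem hl _
  have h1 := hF (single l 1 - s (bd (single l 1))) (Submodule.sub_mem _ hm (hs _))
    (by rw [map_sub, hs' _ hm, sub_self])
  rw [map_sub, evL_single, one_smul, sub_eq_zero, bd_single, one_smul] at h1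
  rw [h1, dlL]
  have h : bdL l ∈ Sp k (fun _ : List α => True) := by simp [Sp]
  exact (eq_of_memL (F := evL k fun l' => evL k F (s (single l' 1))) (G := evL k F ∘ₗ s)
    (fun l' _ => by rw [evL_single, one_smul]; rfl) h).symm

/-- **(LIN)** `P`: the lists of the smaller level, `P'` the lists (of one more point) of the larger
level. Every module valued cocycle is `sum_a v_a F(z_a)` modulo exact ones. -/
theorem exists_lin (P P' : List α → Prop) :
    ∃ (ι : Type) (z : ι → Ch k α) (v : List α → ι →₀ k) (s s' : List α → Ch k α),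
      (∀ a, z a ∈ Sp k P ∧ bd (z a) = 0) ∧ (∀ l, s l ∈ Sp k P) ∧ (∀ l, s' l ∈ Sp k P') ∧
      (∀ a, evL k v (z a) = single a 1) ∧
      (∀ y ∈ Sp k P', bd y ∈ Sp k P → evL k v (bd y) = 0) ∧
      ∀ {L : Type*} [AddCommGroup L] [Module k L] (F : List α → L),
        (∀ y ∈ Sp k P', evL k F (bd y) = 0) → ∀ l, P l →
        F l = (v l).sum (fun a r => r • evL k F (z a)) +
          dlL k (fun l' => evL k F (s l')) l := by
  obtain ⟨ι, z, v, s, s', hz, hs, hs', h1, h2, h3⟩ := exists_split (Sp k P) (Sp k P')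
  have ev_lin : ∀ {L : Type _} [AddCommGroup L] [Module k L] (f : Ch k α →ₗ[k] L) (c : Ch k α),
      evL k (fun l => f (single l 1)) c = f c := fun f c => by
    have h : c ∈ Sp k (fun _ : List α => True) := by simp [Sp]
    exact eq_of_memL (F := evL k fun l => f (single l 1)) (G := f)
      (fun l _ => by rw [evL_single, one_smul]) h
  refine ⟨ι, z, fun l => v (single l 1), fun l => s (single l 1), fun l => s' (single l 1), hz,
    fun l => hs _, fun l => hs' _, fun a => ?_, fun y hy hy' => ?_, fun F hF l hl => ?_⟩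
  · rw [ev_lin v, h2]
  · rw [ev_lin v]
    exact h3 _ hy' ⟨y, hy, rfl⟩
  · have hm : single l (1 : k) ∈ Sp k P := single_mem hl _
    have h4 := congrArg (evL k F) (h1 _ hm)
    rw [map_add, map_add, evL_single, one_smul, hF _ (hs' _), add_zero, bd_single, one_smul] at h4
    rw [h4]
    congr 1
    · rw [Finsupp.linearCombination_apply, Finsupp.sum, map_sum, Finsupp.sum]
      exact Finset.sum_congr rfl fun a _ => by rw [map_smul]
    · rw [dlL]
      have h : bdL l ∈ Sp k (fun _ : List α => True) := by simp [Sp]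
      exact (eq_of_memL (F := evL k fun l' => evL k F (s (single l' 1))) (G := evL k F ∘ₗ s)
        (fun l' _ => by rw [evL_single, one_smul]; rfl) h).symm

end Mod

end Vale.Agent.P216.E2L
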