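import Vale.Agent.P216.H754.Norm
import Vale.Agent.P216.H311.Points

/-!
# (F-LIN), finite form: a compact set, two scales, a finite index set

`linF`: on a compact set `O`, every small list of length `q + 1` is
`sum_a v_a(l) z_a + s (bd l) + bd (s l)` with finitely many cycles `z_a` on the larger scale.
-/

set_option linter.unusedVariables false

open Finsupp Set

namespace Vale.Agent.P216.E2L

open Vale.Agent.P216.Sl

/-- A linear pseudo-inverse on a submodule. -/
theorem exists_secG {k V W : Type*} [Field k] [AddCommGroup V] [Module k V] [AddCommGroup W]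
    [Module k W] (φ : V →ₗ[k] W) (N : Submodule k V) :
    ∃ s : W →ₗ[k] V, (∀ w, s w ∈ N) ∧ ∀ c ∈ N, φ (s (φ c)) = φ c := by
  set ψ : N →ₗ[k] W := φ ∘ₗ N.subtype with hψ
  obtain ⟨r, hr⟩ := LinearMap.exists_rightInverse_of_surjective ψ.rangeRestrict
    (LinearMap.range_rangeRestrict ψ)
  obtain ⟨g, hg⟩ := LinearMap.exists_extend r
  refine ⟨N.subtype ∘ₗ g, fun w => (g w).2, fun c hc => ?_⟩
  have h1 : φ c ∈ LinearMap.range ψ := ⟨⟨c, hc⟩, rfl⟩
  have h2 : g (φ c) = r ⟨φ c, h1⟩ := by rw [← hg]; rfl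
  have h3 := LinearMap.congr_fun hr ⟨φ c, h1⟩
  have h4 := congrArg Subtype.val h3
  change φ (g (φ c)).1 = φ c
  rw [h2]
  exact h4

/-- **The splitting** of a piece `U → V → W` of a complex. -/
theorem exists_splitG {k U V W : Type} [Field k] [AddCommGroup U] [Module k U] [AddCommGroup V]
    [Module k V] [AddCommGroup W] [Module k W] (b2 : U →ₗ[k] V) (b1 : V →ₗ[k] W)
    (C : Submodule k V) (D : Submodule k U) (hb : ∀ y ∈ D, b1 (b2 y) = 0) :
    ∃ (ι : Type) (z : ι → V) (v : V →ₗ[k] ι →₀ k) (s : W →ₗ[k] V) (s' : V →ₗ[k] U),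
      (∀ a, z a ∈ C ∧ b1 (z a) = 0) ∧ (∀ c, s c ∈ C) ∧ (∀ c, s' c ∈ D) ∧
      (∀ c ∈ C, c = linearCombination k z (v c) + s (b1 c) + b2 (s' c)) ∧
      (∀ a, v (z a) = single a 1) ∧ (∀ y ∈ D, b2 y ∈ C → v (b2 y) = 0) := by
  classical
  obtain ⟨s, hs, hs'⟩ := exists_secG b1 C
  obtain ⟨t, ht, ht'⟩ := exists_secG b2 D
  set Z : Submodule k V := C ⊓ LinearMap.ker b1 with hZ
  set ψ : Z →ₗ[k] (V ⧸ D.map b2) := (D.map b2).mkQ ∘ₗ Z.subtype with hψ
  let b := Module.Basis.ofVectorSpace k (LinearMap.range ψ)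
  have hz : ∀ a, ∃ z : Z, ψ z = b a := fun a => (b a).2
  choose z hz using hz
  have hπ : ∀ c ∈ C, c - s (b1 c) ∈ Z := fun c hc =>
    Submodule.mem_inf.2 ⟨C.sub_mem hc (hs _), LinearMap.mem_ker.2 (by
      rw [map_sub, hs' c hc, sub_self])⟩
  let π : C →ₗ[k] Z := LinearMap.codRestrict Z ((LinearMap.id - s ∘ₗ b1) ∘ₗ C.subtype)
    fun c => hπ c c.2
  let v0 : C →ₗ[k] (Module.Basis.ofVectorSpaceIndex k (LinearMap.range ψ)) →₀ k :=
    (b.repr : _ →ₗ[k] _) ∘ₗ ψ.rangeRestrict ∘ₗ π
  obtain ⟨v, hv⟩ := LinearMap.exists_extend v0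
  have hv' : ∀ c (hc : c ∈ C), v c = b.repr (ψ.rangeRestrict (π ⟨c, hc⟩)) := fun c hc =>
    LinearMap.congr_fun hv ⟨c, hc⟩
  have hZC : ∀ c ∈ Z, c ∈ C := fun c hc => hc.1
  have hπZ : ∀ c (hc : c ∈ Z), π ⟨c, hZC c hc⟩ = ⟨c, hc⟩ := fun c hc => by
    apply Subtype.ext
    change c - s (b1 c) = c
    rw [LinearMap.mem_ker.1 hc.2, map_zero, sub_zero]
  refine ⟨_, fun a => (z a : V), v, s,
    t ∘ₗ (LinearMap.id - s ∘ₗ b1 - linearCombination k (fun a => (z a : V)) ∘ₗ v),
    fun a => ⟨(z a).2.1, (z a).2.2⟩, hs, fun c => ht _, fun c hc => ?_, fun a => ?_,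
    fun y hy hc => ?_⟩
  · have h1 : c - s (b1 c) - linearCombination k (fun a => (z a : V)) (v c) ∈ D.map b2 := by
      refine (Submodule.Quotient.mk_eq_zero _).1 ?_
      change (D.map b2).mkQ _ = 0
      rw [map_sub]
      have h2 : (D.map b2).mkQ (c - s (b1 c)) = (ψ.rangeRestrict (π ⟨c, hc⟩)).1 := rfl
      have h3 : (D.map b2).mkQ (linearCombination k (fun a => (z a : V)) (v c)) =
          ((LinearMap.range ψ).subtype (linearCombination k b (v c))) := by
        rw [LinearMap.map_finsupp_linearCombination, LinearMap.map_finsupp_linearCombination]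
        congr 1
        congr 1
        funext a
        exact hz a
      rw [h2, h3, hv' c hc, b.linearCombination_repr, sub_eq_zero]
      rfl
    obtain ⟨y, hy, hy'⟩ := h1
    have h4 : b2 (t (c - s (b1 c) - linearCombination k (fun a => (z a : V)) (v c))) =
        c - s (b1 c) - linearCombination k (fun a => (z a : V)) (v c) := by
      have h5 := ht' y hy
      rw [hy'] at h5
      exact h5
    change c = linearCombination k (fun a => (z a : V)) (v c) + s (b1 c) +
      b2 (t (c - s (b1 c) - linearCombination k (fun a => (z a : V)) (v c)))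
    rw [h4]
    abel
  · rw [hv' _ (z a).2.1, hπZ _ (z a).2]
    have h1 : ψ.rangeRestrict ⟨(z a : V), (z a).2⟩ = b a := Subtype.ext (hz a)
    rw [h1, b.repr_self]
  · have hcZ : b2 y ∈ Z := Submodule.mem_inf.2 ⟨hc, LinearMap.mem_ker.2 (hb y hy)⟩
    rw [hv' _ hc, hπZ _ hcZ]
    have h1 : ψ.rangeRestrict ⟨b2 y, hcZ⟩ = 0 := by
      apply Subtype.ext
      exact (Submodule.Quotient.mk_eq_zero _).2 ⟨y, hy, rfl⟩
    rw [h1, map_zero]

/-- The finite dimensional case. -/
theorem exists_splitF {k U V W : Type} [Field k] [AddCommGroup U] [Module k U] [AddCommGroup V]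
    [Module k V] [AddCommGroup W] [Module k W] (b2 : U →ₗ[k] V) (b1 : V →ₗ[k] W)
    (C : Submodule k V) (D : Submodule k U) (hb : ∀ y ∈ D, b1 (b2 y) = 0)
    [FiniteDimensional k C] :
    ∃ (ι : Type) (_ : Fintype ι) (z : ι → V) (v : ι → V →ₗ[k] k) (s : W →ₗ[k] V)
      (s' : V →ₗ[k] U), (∀ a, z a ∈ C ∧ b1 (z a) = 0) ∧ (∀ c, s c ∈ C) ∧ (∀ c, s' c ∈ D) ∧
      (∀ c ∈ C, c = ∑ a, v a c • z a + s (b1 c) + b2 (s' c)) ∧
      (∀ y ∈ D, b2 y ∈ C → ∀ a, v a (b2 y) = 0) := by
  classical
  obtain ⟨ι, z, v, s, s', h1, h2, h3, h4, h5, h6⟩ := exists_splitG b2 b1 C D hb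
  have hli : LinearIndependent k (fun a => (⟨z a, (h1 a).1⟩ : C)) := by
    refine LinearIndependent.of_comp (v ∘ₗ C.subtype) ?_
    have : (⇑(v ∘ₗ C.subtype) ∘ fun a => (⟨z a, (h1 a).1⟩ : C)) = fun a => single a (1 : k) := by
      funext a
      exact h5 a
    rw [this]
    exact Finsupp.linearIndependent_single_one k ι
  have : Finite ι := hli.finite
  let _ := Fintype.ofFinite ι
  refine ⟨ι, inferInstance, z, fun a => Finsupp.lapply a ∘ₗ v, s, s', h1, h2, h3,
    fun c hc => ?_, fun y hy hc a => ?_⟩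
  · conv_lhs => rw [h4 c hc]
    congr 2
    rw [Finsupp.linearCombination_apply,
      Finsupp.sum_fintype (v c) (fun i a => a • z i) (fun a => zero_smul _ _)]
    rfl
  · change v (b2 y) a = 0
    rw [h6 y hy hc, Finsupp.zero_apply]

variable {k : Type} [Field k] {α β : Type}

/-! ### The prism -/

/-- The prism of a list. -/
noncomputable def prL (f0 f1 : α → β) : List α → Ch k β
  | [] => 0
  | x :: l => cons (f0 x) (single ((x :: l).map f1) 1 - prL f0 f1 l)

/-- The prism of a chain. -/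
noncomputable def pr (f0 f1 : α → β) : Ch k α →ₗ[k] Ch k β :=
  Finsupp.linearCombination k (prL f0 f1)

@[simp] theorem pr_single (f0 f1 : α → β) (l : List α) (r : k) :
    pr f0 f1 (single l r) = r • (prL f0 f1 l : Ch k β) := by
  simp [pr, Finsupp.linearCombination_single]

theorem prL_nil (f0 f1 : α → β) : (prL f0 f1 [] : Ch k β) = 0 := rfl

theorem prL_cons (f0 f1 : α → β) (x : α) (l : List α) :
    (prL f0 f1 (x :: l) : Ch k β) = cons (f0 x) (single ((x :: l).map f1) 1 - prL f0 f1 l) := rfl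

theorem pr_cons (f0 f1 : α → β) (x : α) (c : Ch k α) :
    pr f0 f1 (cons x c) = cons (f0 x) (mp f1 (cons x c) - pr f0 f1 c) := by
  have := lin_ext_apply (f := (pr f0 f1).comp (cons x))
    (g := (cons (f0 x)).comp ((mp (k := k) f1).comp (cons x) - pr f0 f1)) (fun l => by
      simp only [LinearMap.comp_apply, cons_single, pr_single, one_smul, LinearMap.sub_apply,
        mp_single, prL_cons]) c
  simpa using this

/-- The homotopy formula. -/
theorem bd_prL (f0 f1 : α → β) (l : List α) :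
    bd (prL f0 f1 l : Ch k β) + pr f0 f1 (bdL l) =
      single (l.map f1) 1 - single (l.map f0) 1 := by
  induction l with
  | nil => simp [prL_nil, bdL_nil]
  | cons x l ih =>
    have e1 : bd (single ((x :: l).map f1) (1 : k)) =
        single (l.map f1) 1 - cons (f1 x) (mp f1 (bdL l)) := by
      rw [bd_single, one_smul, List.map_cons, bdL_cons]
      congr 2
      have h2 := bd_mp (k := k) f1 (single l 1)
      rw [mp_single, bd_single, bd_single, one_smul, one_smul] at h2
      exact h2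
    have e2 : bd (prL f0 f1 l : Ch k β) =
        single (l.map f1) 1 - single (l.map f0) 1 - pr f0 f1 (bdL l) := by
      rw [← ih]; abel
    have e3 : bd (single ((x :: l).map f1) (1 : k) - prL f0 f1 l) =
        bd (single ((x :: l).map f1) (1 : k)) - bd (prL f0 f1 l : Ch k β) := map_sub _ _ _
    have e4 : pr f0 f1 (single l (1 : k) - cons x (bdL l)) =
        prL f0 f1 l - pr f0 f1 (cons x (bdL l : Ch k α)) := by
      rw [map_sub, pr_single, one_smul]
    rw [prL_cons, bd_cons, e3, e1, e2, bdL_cons, e4, pr_cons, mp_cons]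
    simp only [map_sub, List.map_cons, cons_single]
    abel

theorem bd_pr (f0 f1 : α → β) (c : Ch k α) :
    bd (pr f0 f1 c) + pr f0 f1 (bd c) = mp f1 c - mp f0 c := by
  have := lin_ext_apply (f := bd.comp (pr f0 f1) + (pr f0 f1).comp bd)
    (g := (mp (k := k) f1 - mp f0)) (fun l => by
      simp only [LinearMap.add_apply, LinearMap.comp_apply, pr_single, one_smul, bd_single,
        LinearMap.sub_apply, mp_single, bd_prL]) c
  simpa using this

/-- The lists of the prism. -/
theorem prL_mem (f0 f1 : α → β) (l : List α) :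
    (prL f0 f1 l : Ch k β) ∈ Sp k (fun l' => l'.length = l.length + 1 ∧
      ∀ y ∈ l', ∃ x ∈ l, y = f0 x ∨ y = f1 x) := by
  induction l with
  | nil => exact Submodule.zero_mem _
  | cons x l ih =>
    rw [prL_cons]
    have h1 : single ((x :: l).map f1) (1 : k) - prL f0 f1 l ∈ Sp k (fun l' : List β =>
        l'.length = l.length + 1 ∧ ∀ y ∈ l', ∃ z ∈ x :: l, y = f0 z ∨ y = f1 z) := by
      refine Submodule.sub_mem _ (single_mem ⟨by simp, fun y hy => ?_⟩ _)
        (Sp_mono (fun l' h => ⟨h.1, fun y hy => ?_⟩) ih)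
      · obtain ⟨z, hz, rfl⟩ := List.mem_map.1 hy
        exact ⟨z, hz, Or.inr rfl⟩
      · obtain ⟨z, hz, h2⟩ := h.2 y hy
        exact ⟨z, List.mem_cons_of_mem _ hz, h2⟩
    refine map_mem (cons (f0 x)) (fun l' h => ?_) h1
    rw [cons_single]
    refine single_mem ⟨by simp [h.1], fun y hy => ?_⟩ _
    rcases List.mem_cons.1 hy with rfl | hy
    · exact ⟨x, List.mem_cons_self, Or.inl rfl⟩
    · exact h.2 y hy

/-! ### Small lists of a compact set -/

theorem finite_lists {t : Set α} (ht : t.Finite) (n : ℕ) :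
    {l : List α | l.length = n ∧ ∀ x ∈ l, x ∈ t}.Finite := by
  have : Finite t := ht
  refine ((List.finite_length_eq t n).image (List.map Subtype.val)).subset ?_
  rintro l ⟨h1, h2⟩
  refine ⟨l.attach.map fun x => ⟨x.1, h2 _ x.2⟩, by simp [h1], ?_⟩
  rw [List.map_map]
  exact List.attach_map_subtype_val l

theorem finiteDimensional_Sp {P : List α → Prop} (h : {l | P l}.Finite) :
    FiniteDimensional k (Sp k P) := by
  rw [Sp, Finsupp.supported_eq_span_single]
  exact FiniteDimensional.span_of_finite k (h.image _)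

theorem single_nil_of {c : Ch k α} (hc : c ∈ Sp k (fun l => l.length = 1)) :
    ∃ r : k, bd c = single [] r := by
  have h : bd c ∈ LinearMap.range (Finsupp.lsingle [] : k →ₗ[k] Ch k α) :=
    map_mem bd (fun l hl => by
      obtain ⟨x, rfl⟩ := List.length_eq_one_iff.1 hl
      exact ⟨1, by simp [bdL_cons, bdL_nil]⟩) hc
  obtain ⟨r, hr⟩ := h
  exact ⟨r, hr.symm⟩

variable {E : Type} [PseudoMetricSpace E]

/-- **(F-LIN)** the finite splitting on a compact set, with two scales. -/
theorem linF {O : Set E} (hO : IsCompact O) {r1 r : ℝ} (hr1 : 0 < r1) (hr : r1 < r) (q : ℕ) :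
    ∃ (A : Type) (_ : Fintype A) (z : A → Ch k E) (v : A → Ch k E →ₗ[k] k)
      (s : Ch k E →ₗ[k] Ch k E),
      (∀ a, z a ∈ Sp k (fun l => l.length = q + 1 ∧ PS.SmL O r l) ∧
        ∃ c : k, bd (z a) = single [] c) ∧
      (∀ a l, l.length = q + 2 → PS.SmL O r1 l → v a (bdL l) = 0) ∧
      s (single [] 1) = 0 ∧
      (∀ l, PS.SmL O r1 l → s (single l 1) ∈
        Sp k (fun l' => l'.length = l.length + 1 ∧ PS.SmL O r l')) ∧
      ∀ l, l.length = q + 1 → PS.SmL O r1 l →
        single l 1 = ∑ a, v a (single l 1) • z a + s (bdL l) + bd (s (single l 1)) := by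
  classical
  have he : 0 < (r - r1) / 2 := by linarith
  obtain ⟨t, htO, ht, hcov⟩ := hO.finite_cover_balls he
  have hp : ∀ x : E, ∃ y : E, x ∈ O → y ∈ t ∧ dist x y < (r - r1) / 2 := fun x => by
    by_cases hx : x ∈ O
    · obtain ⟨y, hy, hxy⟩ := mem_iUnion₂.1 (hcov hx)
      exact ⟨y, fun _ => ⟨hy, hxy⟩⟩
    · exact ⟨x, fun h => (hx h).elim⟩
  choose p hp using hp
  -- distances
  have d1 : ∀ x ∈ O, ∀ y ∈ O, dist x y < r1 → dist (p x) y < r := fun x hx y hy h => by
    have h1 := (hp x hx).2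
    rw [dist_comm] at h1
    linarith [dist_triangle (p x) x y]
  have d2 : ∀ x ∈ O, ∀ y ∈ O, dist x y < r1 → dist (p x) (p y) < r := fun x hx y hy h => by
    have h1 := (hp x hx).2
    rw [dist_comm] at h1
    linarith [dist_triangle4 (p x) x y (p y), (hp y hy).2]
  have hmap : ∀ l, PS.SmL O r1 l → PS.SmL t r (l.map p) := fun l hl => by
    refine ⟨fun x' hx' => ?_, fun x' hx' y' hy' => ?_⟩
    · obtain ⟨x, hx, rfl⟩ := List.mem_map.1 hx'
      exact (hp x (hl.1 x hx)).1
    · obtain ⟨x, hx, rfl⟩ := List.mem_map.1 hx'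
      obtain ⟨y, hy, rfl⟩ := List.mem_map.1 hy'
      exact d2 x (hl.1 x hx) y (hl.1 y hy) (hl.2 x hx y hy)
  have hprO : ∀ l, PS.SmL O r1 l → (prL id p l : Ch k E) ∈
      Sp k (fun l' => l'.length = l.length + 1 ∧ PS.SmL O r l') := fun l hl => by
    refine Sp_mono (fun l' h => ⟨h.1, fun y hy => ?_, fun y hy w hw => ?_⟩) (prL_mem id p l)
    · obtain ⟨x, hx, h2⟩ := h.2 y hy
      rcases h2 with h2 | h2 <;> rw [h2]
      · exact hl.1 x hx
      · exact htO (hp x (hl.1 x hx)).1
    · obtain ⟨x, hx, h2⟩ := h.2 y hy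
      obtain ⟨x', hx', h2'⟩ := h.2 w hw
      have h3 := hl.2 x hx x' hx'
      rcases h2 with h2 | h2 <;> rcases h2' with h2' | h2' <;> rw [h2, h2'] <;>
        try rw [id_eq]
      · exact h3.trans hr
      · rw [dist_comm] at h3 ⊢
        exact d1 x' (hl.1 x' hx') x (hl.1 x hx) h3
      · exact d1 x (hl.1 x hx) x' (hl.1 x' hx') h3
      · exact d2 x (hl.1 x hx) x' (hl.1 x' hx') h3
  -- the net
  have hmonoO : ∀ l : List E, PS.SmL t r l → PS.SmL O r l := fun l h =>
    ⟨fun x hx => htO (h.1 x hx), h.2⟩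
  have hfin : {l : List E | l.length = q + 1 ∧ PS.SmL t r l}.Finite :=
    (finite_lists ht (q + 1)).subset fun l h => ⟨h.1, h.2.1⟩
  have hFD : FiniteDimensional k (Sp k (fun l : List E => l.length = q + 1 ∧ PS.SmL t r l)) :=
    finiteDimensional_Sp hfin
  obtain ⟨A, hA, z, v, s, s', h1, h2, h3, h4, h5⟩ := exists_splitF (bd : Ch k E →ₗ[k] Ch k E)
    (if q = 0 then 0 else bd : Ch k E →ₗ[k] Ch k E)
    (Sp k (fun l : List E => l.length = q + 1 ∧ PS.SmL t r l))
    (Sp k (fun l : List E => l.length = q + 2 ∧ PS.SmL t r l))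
    (fun y _ => by split_ifs; exacts [rfl, bd_bd y])
  have hC : ∀ l, l.length = q + 1 → PS.SmL O r1 l → single (l.map p) (1 : k) ∈
      Sp k (fun l : List E => l.length = q + 1 ∧ PS.SmL t r l) := fun l hl hs =>
    single_mem ⟨by rw [List.length_map, hl], hmap l hs⟩ _
  have hD : ∀ l, l.length = q + 2 → PS.SmL O r1 l → single (l.map p) (1 : k) ∈
      Sp k (fun l : List E => l.length = q + 2 ∧ PS.SmL t r l) := fun l hl hs =>
    single_mem ⟨by rw [List.length_map, hl], hmap l hs⟩ _
  set σ : List E → Ch k E := fun l =>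
    if l.length = q ∧ q ≠ 0 then s (single (l.map p) 1) - prL id p l else
      if l.length = q + 1 then s' (single (l.map p) 1) - prL id p l else 0 with hσ
  have hσ1 : ∀ l, l.length = q + 1 → σ l = s' (single (l.map p) 1) - prL id p l := fun l hl => by
    simp only [hσ]
    rw [if_neg (by omega), if_pos hl]
  have hσ0 : q ≠ 0 → ∀ l, l.length = q → σ l = s (single (l.map p) 1) - prL id p l :=
    fun hq l hl => by simp only [hσ]; rw [if_pos ⟨hl, hq⟩]
  refine ⟨A, hA, z, fun a => v a ∘ₗ mp p, Finsupp.linearCombination k σ, fun a => ⟨?_, ?_⟩,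
    fun a l hl hs => ?_, ?_, fun l hs => ?_, fun l hl hs => ?_⟩
  · exact Sp_mono (fun l h => ⟨h.1, hmonoO l h.2⟩) (h1 a).1
  · by_cases hq : q = 0
    · subst hq
      exact single_nil_of (Sp_mono (fun l h => h.1) (h1 a).1)
    · refine ⟨0, ?_⟩
      have := (h1 a).2
      rw [if_neg hq] at this
      rw [this, single_zero]
  · have e1 : mp p (bdL l : Ch k E) = bd (single (l.map p) 1) := by
      have := bd_mp (k := k) p (single l 1)
      rw [mp_single, bd_single (l := l), one_smul] at this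
      exact this.symm
    change v a (mp p (bdL l)) = 0
    rw [e1]
    refine h5 _ (hD l hl hs) ?_ a
    rw [bd_single, one_smul]
    refine Sp_mono (fun l' h => ⟨h.1, fun x hx => (hmap l hs).1 x (h.2 x hx),
      fun x hx y hy => (hmap l hs).2 x (h.2 x hx) y (h.2 y hy)⟩)
      (bdL_cr' (k := k) (l := l.map p) (n := q + 1) (by rw [List.length_map, hl]))
  · rw [linearCombination_single, one_smul]
    simp only [hσ]
    rw [if_neg (by rintro ⟨h, h'⟩; exact h' h.symm), if_neg (by simp)]
  · rw [linearCombination_single, one_smul]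
    simp only [hσ]
    split_ifs with c1 c2
    · refine Submodule.sub_mem _ (Sp_mono (fun l' h => ⟨by rw [h.1, c1.1], hmonoO l' h.2⟩) (h2 _))
        (hprO l hs)
    · refine Submodule.sub_mem _ (Sp_mono (fun l' h => ⟨by rw [h.1, c2], hmonoO l' h.2⟩) (h3 _))
        (hprO l hs)
    · exact Submodule.zero_mem _
  · have e1 := bd_prL (k := k) id p l
    have e2 := h4 _ (hC l hl hs)
    rw [List.map_id] at e1
    have e3 : Finsupp.linearCombination k σ (single l (1 : k)) =
        s' (single (l.map p) 1) - prL id p l := by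
      rw [linearCombination_single, one_smul, hσ1 l hl]
    have e4 : Finsupp.linearCombination k σ (bdL l) =
        s ((if q = 0 then 0 else bd : Ch k E →ₗ[k] Ch k E) (single (l.map p) 1)) -
          pr id p (bdL l) := by
      by_cases hq : q = 0
      · subst hq
        obtain ⟨x, rfl⟩ := List.length_eq_one_iff.1 hl
        simp [bdL_cons, bdL_nil, hσ, prL_nil]
      · rw [if_neg hq]
        have e5 : bd (single (l.map p) (1 : k)) = mp p (bdL l) := by
          have := bd_mp (k := k) p (single l 1)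
          rw [mp_single] at this
          rw [this, bd_single, one_smul]
        rw [e5]
        have e6 := eq_of_mem (k := k) (P := fun l' : List E => l'.length = q)
          (F := Finsupp.linearCombination k σ) (G := s ∘ₗ mp p - pr id p) (fun l' hl' => by
            rw [linearCombination_single, one_smul, hσ0 hq l' hl', LinearMap.sub_apply,
              LinearMap.comp_apply, mp_single, pr_single, one_smul])
          (c := bdL l) (Sp_mono (fun l' h => h.1) (bdL_cr' (k := k) (l := l) (n := q) hl))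
        rw [e6]
        rfl
    have e9 : bd (s' (single (l.map p) 1) - prL id p l) =
        bd (s' (single (l.map p) (1 : k))) - bd (prL id p l : Ch k E) := map_sub _ _ _
    rw [e3, e4, e9]
    have e7 : ∀ a, (v a ∘ₗ mp p) (single l (1 : k)) = v a (single (l.map p) 1) := fun a => by
      rw [LinearMap.comp_apply, mp_single]
    simp only [e7]
    have e8 : single l (1 : k) = single (l.map p) 1 - bd (prL id p l) - pr id p (bdL l) := by
      rw [sub_sub, eq_sub_iff_add_eq, e1]
      abel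
    rw [e8]
    nth_rewrite 1 [e2]
    abel

end Vale.Agent.P216.E2L
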