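import Vale.Agent.P216.E2L.Slot

/-!
# Line slots of the Leray zigzag

The fibre cohomology of degree `q` is spanned by a family `v x`, `x` in the base.
-/

set_option linter.all false

open Set

namespace Vale.Agent.P216.E2L

open Sl PS

variable {k : Type} [Field k] {M E : Type}

/-! ### The products `c ⊗ v` -/

/-- The product of a cochain on the base and of a family `v`, evaluated at the first vertex. -/
def ten (c : List M → k) (v : M → List E → k) : Bi k M E := fun xs ws =>
  match xs with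
  | [] => 0
  | x :: l => c (x :: l) * v x ws

theorem ten_cons (c : List M → k) (v : M → List E → k) (x : M) (l : List M) (ws : List E) :
    ten c v (x :: l) ws = c (x :: l) * v x ws := rfl

theorem ten_nrm {c : List M → k} (hc : Nrm c) (v : M → List E → k) : NrmM (ten c v) := by
  intro ws xs hx
  rcases xs with _ | ⟨x, l⟩
  · rfl
  · show c (x :: l) * v x ws = 0
    rw [hc _ hx, zero_mul]

theorem dM_ten (c : List M → k) (v : M → List E → k) (x y : M) (l : List M) (ws : List E) :
    dM (ten c v) (x :: y :: l) ws = dl c (x :: y :: l) * v x ws +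
      c (y :: l) * (v y ws - v x ws) := by
  rw [dM_cons, dl_cons, ten_cons, dM_apply]
  have e : dl (fun ys => ten c v (x :: ys) ws) (y :: l) =
      dl (fun ys => c (x :: ys)) (y :: l) * v x ws := by
    have e1 : (fun ys => ten c v (x :: ys) ws) = fun ys => v x ws * c (x :: ys) := by
      funext ys
      rw [ten_cons, mul_comm]
    rw [e1, dl_mul_left, mul_comm]
  rw [e]
  ring

theorem dE_ten_cons (c : List M → k) (v : M → List E → k) (x : M) (l : List M) (ws : List E) :
    dE (ten c v) (x :: l) ws = c (x :: l) * dl (v x) ws := by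
  rw [dE_apply]
  exact dl_mul_left _ _ _

theorem ten_add (c c' : List M → k) (v : M → List E → k) :
    ten (fun l => c l + c' l) v = ten c v + ten c' v := by
  funext xs ws
  rcases xs with _ | ⟨x, l⟩
  · show (0 : k) = 0 + 0
    rw [add_zero]
  · exact add_mul _ _ _

theorem ten_smul (a : k) (c : List M → k) (v : M → List E → k) :
    ten (fun l => a * c l) v = a • ten c v := by
  funext xs ws
  rcases xs with _ | ⟨x, l⟩
  · show (0 : k) = a * 0
    rw [mul_zero]
  · exact mul_assoc _ _ _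

/-- The correction term. -/
def cor (b : List M → k) (h : M → M → List E → k) : Bi k M E := fun xs ws =>
  match xs with
  | [] => 0
  | [_] => 0
  | x :: y :: l => b (y :: l) * h x y ws

theorem cor_nrm {b : List M → k} (hb : Nrm b) {h : M → M → List E → k} (hh : ∀ x, h x x = 0) :
    NrmM (cor b h) := by
  intro ws xs hx
  rcases xs with _ | ⟨x, _ | ⟨y, l⟩⟩
  · rfl
  · rfl
  · show b (y :: l) * h x y ws = 0
    rcases Classical.em ((y :: l).IsChain (· ≠ ·)) with hc | hc
    · have hxy : x = y := by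
        by_contra h'
        exact hx (List.isChain_cons_cons.2 ⟨h', hc⟩)
      subst hxy
      rw [hh, Pi.zero_apply, mul_zero]
    · rw [hb _ hc, zero_mul]

section

variable [PseudoMetricSpace M] [PseudoMetricSpace E]

/-- The fibre cohomology of degree `q` is spanned by the family `v`. -/
structure LineB (π : E → M) (A : Set M) (X X' : Set E) (q : ℕ) (v : M → List E → k) : Prop where
  coc : ∃ r > 0, ∀ x ws, ws.length = q + 2 → Dom π A X' r [x] ws → dl (v x) ws = 0
  comp : ∃ h : M → M → List E → k, ∃ r > 0, ∀ x y ws, ws.length = q + 1 →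
    Dom π A X' r [x, y] ws → v y ws - v x ws = dl (h x y) ws
  span : ∀ r > 0, ∃ r' > 0, ∀ (x : M) (xs : List M), SmL A r' (x :: xs) → ∀ f : List E → k,
    (∀ ws, ws.length = q + 2 → Dom π A X r (x :: xs) ws → dl f ws = 0) →
      ∃ (c : k) (g : List E → k), ∀ ws, ws.length = q + 1 → Dom π A X' r' (x :: xs) ws →
        f ws = c * v x ws + dl g ws
  ne : ∀ r > 0, ∃ r' > 0, ∀ (x : M) (xs : List M), SmL A r' (x :: xs) → ∀ (c : k)
    (g : List E → k), (∀ ws, ws.length = q + 1 → Dom π A X' r (x :: xs) ws →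
      c * v x ws = dl g ws) → c = 0

variable {π : E → M} {A : Set M} {X X' X'' : Set E} {p q : ℕ} {v : M → List E → k}

/-- The pointwise choice of the coefficients. -/
theorem LineB.exists_c (L : LineB π A X X' q v) {F : Bi k M E} (hF : NrmM F)
    (he : dE F ∈ Zs π A X k (p + 1) (q + 2)) : ∃ c : List M → k, Nrm c ∧ ∃ Y : Bi k M E,
      NrmM Y ∧ F - ten c v - dE Y ∈ Zs π A X' k (p + 1) (q + 1) := by
  obtain ⟨r, hr, h⟩ := he
  obtain ⟨r', hr', h'⟩ := L.span r hr
  have key : ∀ xs : List M, ∃ (c : k) (g : List E → k),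
      (¬ xs.IsChain (· ≠ ·) → c = 0 ∧ g = 0) ∧
      (xs.length = p + 1 → xs.IsChain (· ≠ ·) → SmL A r' xs → ∀ ws, ws.length = q + 1 →
        Dom π A X' r' xs ws → F xs ws = ten (fun _ => c) v xs ws + dl g ws) := by
    intro xs
    by_cases hc : xs.IsChain (· ≠ ·)
    · by_cases hs : SmL A r' xs ∧ xs.length = p + 1
      · obtain ⟨hs, hl⟩ := hs
        rcases xs with _ | ⟨x, xs⟩
        · simp at hl
        obtain ⟨c, g, hg⟩ := h' x xs hs (F (x :: xs)) fun ws h1 h2 => h (x :: xs) ws hl h1 h2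
        exact ⟨c, g, fun h => absurd hc h, fun _ _ _ => hg⟩
      · exact ⟨0, 0, fun _ => ⟨rfl, rfl⟩, fun h1 _ h2 => absurd ⟨h2, h1⟩ hs⟩
    · exact ⟨0, 0, fun _ => ⟨rfl, rfl⟩, fun _ h => absurd h hc⟩
  choose c Y hY1 hY2 using key
  refine ⟨c, fun xs hx => (hY1 xs hx).1, Y, fun ws xs hx => ?_, r', hr', fun xs ws h1 h2 h3 => ?_⟩
  · show Y xs ws = 0
    rw [(hY1 xs hx).2]
    rfl
  · show F xs ws - ten c v xs ws - dl (Y xs) ws = 0
    rcases xs with _ | ⟨x, xs⟩
    · simp at h1
    by_cases hc : (x :: xs).IsChain (· ≠ ·)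
    · rw [hY2 _ h1 hc h3.1 ws h2 h3, ten_cons, ten_cons]
      ring
    · have e1 : F (x :: xs) ws = 0 := hF ws _ hc
      have e2 : dl (Y (x :: xs)) ws = 0 := by
        rw [(hY1 _ hc).2]
        exact dl_zero_fun _
      rw [e1, e2, ten_cons, (hY1 _ hc).1]
      ring

/-- The coefficients form a cocycle on the base. -/
theorem LineB.coef_coc (L : LineB π A X X' q v) (hX : X' ⊆ X) {F : Bi k M E}
    (hF : BC π A X p q F) {c : List M → k} {Y : Bi k M E}
    (hd : F - ten c v - dE Y ∈ Zs π A X' k (p + 1) (q + 1)) : CocL A p c := by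
  obtain ⟨h, r₁, hr₁, h1⟩ := L.comp
  obtain ⟨r₂, hr₂, h2⟩ := Zs_mono hX hF.m
  obtain ⟨r₃, hr₃, h3⟩ := dM_mem hd
  have hm : 0 < min r₁ (min r₂ r₃) := lt_min hr₁ (lt_min hr₂ hr₃)
  obtain ⟨r', hr', h'⟩ := L.ne _ hm
  refine ⟨r', hr', fun l hl hs => ?_⟩
  rcases l with _ | ⟨x, _ | ⟨y, l⟩⟩
  · simp at hl
  · simp at hl
  refine h' x (y :: l) hs _ (fun ws => -(c (y :: l)) * h x y ws + (-1) * dM Y (x :: y :: l) ws)
    fun ws hw hD => ?_
  have e1 := h1 x y ws hw ((hD.mono subset_rfl (min_le_left _ _)).sub (by simp) fun _ h => h)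
  have e2 := h2 (x :: y :: l) ws hl hw
    (hD.mono subset_rfl ((min_le_right _ _).trans (min_le_left _ _)))
  have e3 := h3 (x :: y :: l) ws hl hw
    (hD.mono subset_rfl ((min_le_right _ _).trans (min_le_right _ _)))
  rw [map_sub, map_sub, dM_dE] at e3
  have e4 : dM F (x :: y :: l) ws - dM (ten c v) (x :: y :: l) ws -
      dE (dM Y) (x :: y :: l) ws = 0 := e3
  rw [e2, dM_ten, e1, dE_apply] at e4
  rw [Sl.dl_add, dl_mul_left, dl_mul_left]
  linear_combination -e4

/-- **Line slots**: if the coefficient cocycle is exact on the base, the bicocycle can be pushed. -/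
theorem LineB.push (L : LineB π A X X' (q + 1) v) (hπ : ∀ w w', dist (π w) (π w') ≤ dist w w')
    (hX : X' ⊆ X) {F : Bi k M E} (hF : BC π A X p (q + 1) F) {c : List M → k} (hc : Nrm c)
    {Y : Bi k M E} (hY : NrmM Y) (hd : F - ten c v - dE Y ∈ Zs π A X' k (p + 1) (q + 2))
    (he : ExL A p c) : ∃ F', BC π A X' (p + 1) q F' ∧
    ∃ G : List E → k, VV π p G ∧ ∃ r > 0, ∀ l, l.length = p + q + 2 →
      SmL (X' ∩ π ⁻¹' A) r l → aw π p F l = dl G l - (-1 : k) ^ p * aw π (p + 1) F' l := by
  obtain ⟨b, hbN, hb0, r₁, hr₁, hb⟩ := nrm_prim hc (L.coef_coc hX hF hd) he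
  rcases Nat.eq_zero_or_pos p with rfl | hp
  · -- `p = 0`: the coefficient vanishes
    have hd' : F - dE Y ∈ Zs π A X' k (0 + 1) (q + 2) := by
      obtain ⟨r₂, hr₂, h2⟩ := hd
      refine ⟨min r₁ r₂, lt_min hr₁ hr₂, fun xs ws h3 h4 h5 => ?_⟩
      have e1 := h2 xs ws h3 h4 (h5.mono subset_rfl (min_le_right _ _))
      have e2 := hb xs (by omega) (h5.1.mono subset_rfl (min_le_left _ _))
      rw [show b = fun _ => 0 from funext (hb0 rfl), dl_zero_fun] at e2
      rcases xs with _ | ⟨x, xs⟩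
      · simp at h3
      have e3 : F (x :: xs) ws - c (x :: xs) * v x ws - dE Y (x :: xs) ws = 0 := e1
      rw [e2, zero_mul, sub_zero] at e3
      exact e3
    exact ⟨dM Y, hF.next hX hY hd', _, VV.aw hY _, aw_step hπ hd'⟩
  · obtain ⟨p, rfl⟩ : ∃ p', p = p' + 1 := ⟨p - 1, by omega⟩
    obtain ⟨h₀, r₂, hr₂, hh₀⟩ := L.comp
    -- the primitives with `h x x = 0`
    classical
    set h : M → M → List E → k := fun x y => if x = y then 0 else h₀ x y with hdef
    have hh : ∀ x y ws, ws.length = q + 2 → Dom π A X' r₂ [x, y] ws →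
        v y ws - v x ws = dl (h x y) ws := by
      intro x y ws h3 h4
      by_cases hxy : x = y
      · subst hxy
        simp only [hdef, if_pos rfl, sub_self]
        exact (dl_zero_fun _).symm
      · simp only [hdef, if_neg hxy]
        exact hh₀ x y ws h3 h4
    have hhx : ∀ x, h x x = 0 := fun x => by simp only [hdef, if_pos rfl]
    have hbE : dE (ten b v) ∈ Zs π A X' k (p + 1) (q + 3) := by
      obtain ⟨r₃, hr₃, h3⟩ := L.coc
      refine ⟨r₃, hr₃, fun xs ws h4 h5 h6 => ?_⟩
      rcases xs with _ | ⟨x, xs⟩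
      · simp at h4
      rw [dE_ten_cons, h3 x ws h5 (h6.sub (by simp) fun _ h => h), mul_zero]
    have hd' : F - dM (ten b v) - dE (Y - cor b h) ∈ Zs π A X' k (p + 1 + 1) (q + 2) := by
      obtain ⟨r₃, hr₃, h3⟩ := hd
      refine ⟨min r₁ (min r₂ r₃), lt_min hr₁ (lt_min hr₂ hr₃), fun xs ws h4 h5 h6 => ?_⟩
      rcases xs with _ | ⟨x, _ | ⟨y, l⟩⟩
      · simp at h4
      · simp at h4
      have e1 : F (x :: y :: l) ws - c (x :: y :: l) * v x ws - dE Y (x :: y :: l) ws = 0 :=
        h3 _ ws h4 h5 (h6.mono subset_rfl ((min_le_right _ _).trans (min_le_right _ _)))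
      have e2 := hb (x :: y :: l) (by omega) (h6.1.mono subset_rfl (min_le_left _ _))
      have e3 := hh x y ws (by omega)
        ((h6.mono subset_rfl ((min_le_right _ _).trans (min_le_left _ _))).sub (by simp)
          fun _ h => h)
      rw [map_sub]
      have e4 : dE (cor b h) (x :: y :: l) ws = b (y :: l) * dl (h x y) ws := by
        rw [dE_apply]
        exact dl_mul_left _ _ _
      show F (x :: y :: l) ws - dM (ten b v) (x :: y :: l) ws -
        (dE Y (x :: y :: l) ws - dE (cor b h) (x :: y :: l) ws) = 0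
      rw [dM_ten, e3, e4, ← e2]
      linear_combination e1
    have hF1 : BC π A X' (p + 1) (q + 1) (F - dM (ten b v)) := by
      refine ⟨hF.n.sub (ten_nrm hbN v).dM, ?_, ?_⟩
      · rw [map_sub, ← dM_dE]
        exact sub_mem (Zs_mono hX hF.e) (dM_mem hbE)
      · rw [map_sub, dM_dM, sub_zero]
        exact Zs_mono hX hF.m
    have hY' : NrmM (Y - cor b h) := hY.sub (cor_nrm hbN hhx)
    obtain ⟨r₃, hr₃, h3⟩ := aw_step hπ hd'
    obtain ⟨r₄, hr₄, h4⟩ := aw_mem (q := q + 2) hπ hbE
    refine ⟨dM (Y - cor b h), hF1.next subset_rfl hY' hd',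
      fun l => (-1 : k) ^ (p + 1) * aw π (p + 1) (Y - cor b h) l + 1 * aw π p (ten b v) l,
      (VV.aw hY' _).add fun hp l hl hv => ?_, min r₃ r₄, lt_min hr₃ hr₄, fun l hl hs => ?_⟩
    · show (1 : k) * aw π p (ten b v) l = 0
      rw [(ten_nrm hbN v).aw_vert π (by omega) hl hv, mul_zero]
    · have e1 := h3 l (by omega) (hs.mono subset_rfl (min_le_left _ _))
      have e2 := h4 l (by omega) (hs.mono subset_rfl (min_le_right _ _))
      have e3 := dl_aw π p (ten b v) l (by omega)
      rw [e2, mul_zero, add_zero] at e3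
      rw [map_sub, Pi.sub_apply] at e1
      rw [Sl.dl_add, dl_mul_left 1, e3]
      linear_combination e1

/-- Line slots over a base without cohomology in degree `p`. -/
theorem slot_line (L : LineB π A X X' (q + 1) v) (hπ : ∀ w w', dist (π w) (π w') ≤ dist w w')
    (hX : X' ⊆ X) (hA : ∀ c : List M → k, Nrm c → CocL A p c → ExL A p c) :
    Slot π A X X' k p q := by
  intro F hF
  obtain ⟨c, hc, Y, hY, hd⟩ := L.exists_c hF.n hF.e
  exact L.push hπ hX hF hc hY hd (hA c hc (L.coef_coc hX hF hd))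

end

end Vale.Agent.P216.E2L
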