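import Vale.Agent.P216.E2L.Line

/-!
# Output of the Leray zigzag

* `Red`: reduction of bicocycles along a chain of slots; `red_all`, `kill_all`: for filtered
  families `X : ℝ → Set E`;
* `leray_zero` (U1): no slot, no class;
* `Coef`: the coefficient in `H^p(A)` of a class in the line slot `(p, q + 1)`: linear, equivariant,
  and the class dies when its coefficient is exact (`Coef.zero`), `leray_rk` (U2).
-/

set_option linter.all false

open Set

namespace Vale.Agent.P216.E2L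

open Sl PS

variable {k : Type} [Field k] {M E : Type} [PseudoMetricSpace M] [PseudoMetricSpace E]

section

variable (π : E → M) (A : Set M) (X X' : Set E)

/-- Reduction from the bidegree `(p, q)` to the bidegree `(p', q')`. -/
def Red (p q p' q' : ℕ) (ε : k) : Prop :=
  ∀ F : Bi k M E, BC π A X p q F → ∃ F', BC π A X' p' q' F' ∧ ∃ G : List E → k, VV π p G ∧
    ∃ r > 0, ∀ l, l.length = p + q + 1 → SmL (X' ∩ π ⁻¹' A) r l →
      aw π p F l = dl G l + ε * aw π p' F' l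

/-- `z` is a cocycle of degree `m` on the small lists of `X` near `A`. -/
def CocA (m : ℕ) (z : List E → k) : Prop :=
  ∃ r > 0, ∀ x ∈ A, ∀ ws, ws.length = m + 2 → SmL X r ws → (∀ w ∈ ws, dist x (π w) < r) →
    dl z ws = 0

/-- The bicochain of a cochain of `E`. -/
def F0 (z : List E → k) : Bi k M E := fun xs ws =>
  match xs with
  | [] => 0
  | [_] => z ws
  | _ :: _ :: _ => 0

end

variable {π : E → M} {A : Set M} {X X' X₁ X₂ X₃ : Set E} {p q p' q' p'' q'' m : ℕ}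
  {v : M → List E → k} {ε ε' : k}

theorem CocL.cocA {z : List E → k} (h : CocL X m z) : CocA π A X m z := by
  obtain ⟨r, hr, h⟩ := h
  exact ⟨r, hr, fun _ _ ws h1 h2 _ => h ws h1 h2⟩

theorem CocA.mono {z : List E → k} (h : CocA π A X m z) (hX : X' ⊆ X) : CocA π A X' m z := by
  obtain ⟨r, hr, h⟩ := h
  exact ⟨r, hr, fun x hx ws h1 h2 h3 => h x hx ws h1 (h2.mono hX le_rfl) h3⟩

theorem CocA.add {z z' : List E → k} (h : CocA π A X m z) (h' : CocA π A X m z') :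
    CocA π A X m fun l => z l + z' l := by
  obtain ⟨r, hr, h⟩ := h
  obtain ⟨r', hr', h'⟩ := h'
  refine ⟨min r r', lt_min hr hr', fun x hx ws h1 h2 h3 => ?_⟩
  rw [Sl.dl_add, h x hx ws h1 (h2.mono subset_rfl (min_le_left _ _))
    fun w hw => (h3 w hw).trans_le (min_le_left _ _),
    h' x hx ws h1 (h2.mono subset_rfl (min_le_right _ _))
    fun w hw => (h3 w hw).trans_le (min_le_right _ _), add_zero]

theorem CocA.smul {z : List E → k} (a : k) (h : CocA π A X m z) :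
    CocA π A X m fun l => a * z l := by
  obtain ⟨r, hr, h⟩ := h
  exact ⟨r, hr, fun x hx ws h1 h2 h3 => by rw [dl_mul_left, h x hx ws h1 h2 h3, mul_zero]⟩

theorem F0_nrm (z : List E → k) : NrmM (F0 (M := M) z) := by
  intro ws xs hx
  rcases xs with _ | ⟨x, _ | ⟨y, l⟩⟩
  · rfl
  · exact absurd (List.isChain_singleton x) hx
  · rfl

theorem F0_bc {z : List E → k} (h : CocA π A X m z) : BC π A X 0 m (F0 z) := by
  obtain ⟨r, hr, h⟩ := h
  refine ⟨F0_nrm z, ⟨r, hr, fun xs ws h1 h2 h3 => ?_⟩, ⟨1, one_pos, fun xs ws h1 h2 h3 => ?_⟩⟩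
  · obtain ⟨x, rfl⟩ := List.length_eq_one_iff.1 h1
    exact h x (h3.1.1 x (by simp)) ws h2 h3.2.1 fun w hw => h3.2.2 x (by simp) w hw
  · obtain ⟨x, y, rfl⟩ := List.length_eq_two.1 h1
    rw [dM_cons, dM_apply, dl_one]
    show z ws - z ws = 0
    exact sub_self _

theorem aw_F0 (z : List E → k) {l : List E} (hl : l ≠ []) : aw π 0 (F0 z) l = z l := by
  rcases l with _ | ⟨w, l⟩
  · exact absurd rfl hl
  · rfl

/-! ### Reductions -/

theorem Slot.red (h : Slot π A X X' k p q) :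
    Red π A X X' p (q + 1) (p + 1) q (-(-1 : k) ^ p) := by
  intro F hF
  obtain ⟨F', hF', G, hG, r, hr, h⟩ := h F hF
  refine ⟨F', hF', G, hG, r, hr, fun l hl hs => ?_⟩
  rw [h l (by omega) hs]
  ring

theorem Red.refl (hX : X' ⊆ X) : Red π A X X' p q p q (1 : k) := by
  intro F hF
  refine ⟨F, hF.mono hX, fun _ => 0, fun _ _ _ _ => rfl, 1, one_pos, fun l _ _ => ?_⟩
  rw [Sl.dl_congr (g := fun _ => (0 : k)) fun _ _ _ => rfl, dl_zero_fun]
  ring

theorem Red.trans (h : Red π A X X₁ p q p' q' ε) (h' : Red π A X₁ X₂ p' q' p'' q'' ε')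
    (hX : X₂ ⊆ X₁) (hp : p ≤ p') (hq : p' + q' = p + q) :
    Red π A X X₂ p q p'' q'' (ε * ε') := by
  intro F hF
  obtain ⟨F₁, hF₁, G, hG, r, hr, h⟩ := h F hF
  obtain ⟨F₂, hF₂, G', hG', r', hr', h'⟩ := h' F₁ hF₁
  refine ⟨F₂, hF₂, fun l => G l + ε * G' l, hG.add ((hG'.mono hp).smul _), min r r',
    lt_min hr hr', fun l hl hs => ?_⟩
  rw [h l hl (hs.mono (inter_subset_inter_left _ hX) (min_le_left _ _)),
    h' l (by omega) (hs.mono subset_rfl (min_le_right _ _)), Sl.dl_add, dl_mul_left]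
  ring

theorem Red.kill (h : Red π A X X₁ p q p' q' ε) (h' : Kill π A X₁ X₂ k p' q')
    (hX : X₂ ⊆ X₁) (hp : p ≤ p') (hq : p' + q' = p + q) (hm : p + q ≠ 0) :
    Kill π A X X₂ k p q := by
  intro F hF
  obtain ⟨F₁, hF₁, G, hG, r, hr, h⟩ := h F hF
  obtain ⟨G', hG', -, r', hr', h'⟩ := h' F₁ hF₁
  refine ⟨fun l => G l + ε * G' l, hG.add ((hG'.mono hp).smul _), fun h => absurd h hm,
    min r r', lt_min hr hr', fun l hl hs => ?_⟩
  rw [h l hl (hs.mono (inter_subset_inter_left _ hX) (min_le_left _ _)),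
    h' l (by omega) (hs.mono subset_rfl (min_le_right _ _)), Sl.dl_add, dl_mul_left]

section

variable {Y : ℝ → Set E} {c t₀ : ℝ}

/-- Reductions along a filtered family. -/
theorem red_all (hY : Monotone Y) (hc : 0 ≤ c) (hpq : p + q = m) : ∀ n p' q', p' = p + n →
    p' + q' = m → (∀ i j, i + j + 1 = m → p ≤ i → i < p' → ∀ t ≥ t₀,
      Slot π A (Y (t + c)) (Y t) k i j) →
    ∃ ε : k, ε ≠ 0 ∧ ∀ t ≥ t₀, Red π A (Y (t + n * c)) (Y t) p q p' q' ε := by
  intro n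
  induction n with
  | zero =>
    intro p' q' h1 h2 _
    have e1 : p' = p := by omega
    have e2 : q' = q := by omega
    subst e1 e2
    refine ⟨1, one_ne_zero, fun t ht => ?_⟩
    exact Red.refl (hY (by simp))
  | succ n ih =>
    intro p' q' h1 h2 hS
    obtain ⟨p', rfl⟩ : ∃ i, p' = i + 1 := ⟨p' - 1, by omega⟩
    obtain ⟨ε, hε, h⟩ := ih p' (q' + 1) (by omega) (by omega)
      fun i j h3 h4 h5 => hS i j h3 h4 (by omega)
    refine ⟨ε * -(-1 : k) ^ p', mul_ne_zero hε (neg_ne_zero.2 (pow_ne_zero _ (by simp))),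
      fun t ht => ?_⟩
    have e := (h (t + c) (by linarith)).trans (hS p' q' (by omega) (by omega) (by omega) t ht).red
      (hY (by linarith)) (by omega) (by omega)
    have e1 : t + c + n * c = t + ((n + 1 : ℕ) : ℝ) * c := by push_cast; ring
    rwa [e1] at e

/-- Killing along a filtered family. -/
theorem kill_all (hY : Monotone Y) (hc : 0 ≤ c) (hpq : p + q = m)
    (hS : ∀ i j, i + j + 1 = m → p ≤ i → ∀ t ≥ t₀, Slot π A (Y (t + c)) (Y t) k i j)
    (h0 : ∀ t ≥ t₀, Kill π A (Y (t + c)) (Y t) k m 0) :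
    ∀ t ≥ t₀, Kill π A (Y (t + (q + 1) * c)) (Y t) k p q := by
  intro t ht
  rcases Nat.eq_zero_or_pos q with rfl | hq
  · have e : p = m := by omega
    subst e
    simpa using h0 t ht
  obtain ⟨ε, -, h⟩ := red_all (π := π) (A := A) (q := q) (t₀ := t₀) hY hc hpq q m 0 (by omega)
    (by omega) fun i j h1 h2 h3 => hS i j h1 h2
  have e := (h (t + c) (by linarith)).kill (h0 t ht) (hY (by linarith)) (by omega) (by omega)
    (by omega)
  have e1 : t + c + q * c = t + ((q : ℝ) + 1) * c := by ring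
  rwa [e1] at e

end

/-- **(U1)** -/
theorem leray_zero (hK : Kill π A X X' k 0 m) {z : List E → k} (hz : CocA π A X m z) :
    ExL (X' ∩ π ⁻¹' A) m z := by
  obtain ⟨G, -, hG, r, hr, h⟩ := hK _ (F0_bc hz)
  refine ⟨G, fun h0 => hG (by omega), r, hr, fun l hl hs => ?_⟩
  rw [← h l (by omega) hs, aw_F0 z (by intro h; rw [h] at hl; simp at hl)]

/-! ### Coefficients -/

/-- `c` is the coefficient of the class `z` in the slot `(p, q + 1)`. -/
def Coef (π : E → M) (A : Set M) (X₁ X₂ : Set E) (p q : ℕ) (v : M → List E → k) (ε : k)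
    (z : List E → k) (c : List M → k) : Prop :=
  Nrm c ∧ ∃ F, BC π A X₁ p (q + 1) F ∧
    (∃ Y : Bi k M E, NrmM Y ∧ F - ten c v - dE Y ∈ Zs π A X₂ k (p + 1) (q + 2)) ∧
    ∃ (G : List E → k), ∃ r > 0, ∀ l, l.length = p + q + 2 → SmL (X₁ ∩ π ⁻¹' A) r l →
      z l = dl G l + ε * aw π p F l

/-- Existence of the coefficient. -/
theorem exists_coef (hR : Red π A X X₁ 0 m p (q + 1) ε) (hm : p + (q + 1) = m)
    (L : LineB π A X₁ X₂ (q + 1) v) {z : List E → k} (hz : CocA π A X m z) :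
    ∃ c, Coef π A X₁ X₂ p q v ε z c := by
  obtain ⟨F, hF, G, -, r, hr, h⟩ := hR _ (F0_bc hz)
  obtain ⟨c, hc, Y, hY, hd⟩ := L.exists_c hF.n hF.e
  refine ⟨c, hc, F, hF, ⟨Y, hY, hd⟩, G, r, hr, fun l hl hs => ?_⟩
  rw [← h l (by omega) hs, aw_F0 z (by intro h; rw [h] at hl; simp at hl)]

theorem Coef.coc (L : LineB π A X₁ X₂ (q + 1) v) (hX : X₂ ⊆ X₁) {z : List E → k}
    {c : List M → k} (h : Coef π A X₁ X₂ p q v ε z c) : CocL A p c := by
  obtain ⟨-, F, hF, ⟨Y, -, hd⟩, -⟩ := h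
  exact L.coef_coc hX hF hd

theorem Coef.add {z z' : List E → k} {c c' : List M → k} (h : Coef π A X₁ X₂ p q v ε z c)
    (h' : Coef π A X₁ X₂ p q v ε z' c') :
    Coef π A X₁ X₂ p q v ε (fun l => z l + z' l) fun l => c l + c' l := by
  obtain ⟨hc, F, hF, ⟨Y, hY, hd⟩, G, r, hr, h⟩ := h
  obtain ⟨hc', F', hF', ⟨Y', hY', hd'⟩, G', r', hr', h'⟩ := h'
  refine ⟨hc.add hc', F + F', hF.add hF', ⟨Y + Y', hY.add hY', ?_⟩, fun l => G l + G' l,
    min r r', lt_min hr hr', fun l hl hs => ?_⟩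
  · rw [ten_add, map_add]
    have e : F + F' - (ten c v + ten c' v) - (dE Y + dE Y') =
        (F - ten c v - dE Y) + (F' - ten c' v - dE Y') := by abel
    rw [e]
    exact add_mem hd hd'
  · show z l + z' l = _
    rw [h l hl (hs.mono subset_rfl (min_le_left _ _)),
      h' l hl (hs.mono subset_rfl (min_le_right _ _)), Sl.dl_add, map_add, Pi.add_apply]
    ring

theorem Coef.smul {z : List E → k} {c : List M → k} (a : k)
    (h : Coef π A X₁ X₂ p q v ε z c) :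
    Coef π A X₁ X₂ p q v ε (fun l => a * z l) fun l => a * c l := by
  obtain ⟨hc, F, hF, ⟨Y, hY, hd⟩, G, r, hr, h⟩ := h
  refine ⟨hc.smul a, a • F, hF.smul a, ⟨a • Y, hY.smul a, ?_⟩, fun l => a * G l, r, hr,
    fun l hl hs => ?_⟩
  · rw [ten_smul, map_smul, ← smul_sub, ← smul_sub]
    exact Submodule.smul_mem _ _ hd
  · show a * z l = _
    rw [h l hl hs, dl_mul_left, map_smul, Pi.smul_apply, smul_eq_mul]
    ring

/-- A class with an exact coefficient dies. -/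
theorem Coef.zero (L : LineB π A X₁ X₂ (q + 1) v)
    (hπ : ∀ w w', dist (π w) (π w') ≤ dist w w') (hX : X₂ ⊆ X₁) (hX' : X₃ ⊆ X₂)
    (hK : Kill π A X₂ X₃ k (p + 1) q) {z : List E → k} {c : List M → k}
    (h : Coef π A X₁ X₂ p q v ε z c) (he : ExL A p c) :
    ExL (X₃ ∩ π ⁻¹' A) (p + q + 1) z := by
  obtain ⟨hc, F, hF, ⟨Y, hY, hd⟩, G, r, hr, h⟩ := h
  obtain ⟨F', hF', G₁, -, r₁, hr₁, h₁⟩ := L.push hπ hX hF hc hY hd he
  obtain ⟨G₂, -, -, r₂, hr₂, h₂⟩ := hK F' hF'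
  refine ⟨fun l => G l + ε * (G₁ l + -(-1 : k) ^ p * G₂ l), fun h0 => by omega,
    min r (min r₁ r₂), lt_min hr (lt_min hr₁ hr₂), fun l hl hs => ?_⟩
  rw [h l (by omega) (hs.mono (inter_subset_inter_left _ (hX'.trans hX)) (min_le_left _ _)),
    h₁ l (by omega) (hs.mono (inter_subset_inter_left _ hX')
      ((min_le_right _ _).trans (min_le_left _ _))),
    h₂ l (by omega) (hs.mono subset_rfl ((min_le_right _ _).trans (min_le_right _ _))),
    Sl.dl_add, dl_mul_left, Sl.dl_add, dl_mul_left]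
  ring

/-- Equivariance of the coefficient. -/
theorem Coef.map {X₁' X₂' : Set E} {v' : M → List E → k} {θ : E → E} {a : k}
    (hθ1 : MapsTo θ X₁' X₁) (hθ2 : MapsTo θ X₂' X₂) (hX : X₂' ⊆ X₁')
    (huc : ∀ r > 0, ∃ δ > 0, ∀ w ∈ X₁', ∀ w' ∈ X₁', dist w w' < δ → dist (θ w) (θ w') < r)
    (hπθ : ∀ w ∈ X₁', π (θ w) = π w)
    (hv : ∃ h : M → List E → k, ∃ r > 0, ∀ x ws, ws.length = q + 2 → Dom π A X₂' r [x] ws →
      v x (ws.map θ) - a * v' x ws = dl (h x) ws)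
    {z : List E → k} {c : List M → k} (h : Coef π A X₁ X₂ p q v ε z c) :
    Coef π A X₁' X₂' p q v' ε (fun l => z (l.map θ)) fun l => a * c l := by
  obtain ⟨hc, F, hF, ⟨Y, hY, hd⟩, G, r, hr, h⟩ := h
  obtain ⟨g, r₀, hr₀, hg⟩ := hv
  -- pull-back of bicochains
  set T : Bi k M E → Bi k M E := fun F xs ws => F xs (ws.map θ) with hT
  have hTE : ∀ (F : Bi k M E) xs ws, dE (T F) xs ws = dE F xs (ws.map θ) := fun F xs ws => by
    rw [dE_apply, dE_apply]
    exact Sl.dl_map _ _ _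
  have hTM : ∀ (F : Bi k M E) xs ws, dM (T F) xs ws = dM F xs (ws.map θ) := fun F xs ws => rfl
  have dom : ∀ {Z Z' : Set E}, Z' ⊆ X₁' → MapsTo θ Z' Z → ∀ ρ > 0, ∃ δ > 0, ∀ xs ws,
      Dom π A Z' δ xs ws → Dom π A Z ρ xs (ws.map θ) := by
    intro Z Z' hZ hm ρ hρ
    obtain ⟨δ, hδ, hu⟩ := huc ρ hρ
    refine ⟨min δ ρ, lt_min hδ hρ, fun xs ws hD => ⟨hD.1.mono subset_rfl (min_le_right _ _),
      ⟨fun w hw => ?_, fun w hw w' hw' => ?_⟩, fun x hx w hw => ?_⟩⟩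
    · obtain ⟨u, hu', rfl⟩ := List.mem_map.1 hw
      exact hm (hD.2.1.1 u hu')
    · obtain ⟨u, h1, rfl⟩ := List.mem_map.1 hw
      obtain ⟨u', h2, rfl⟩ := List.mem_map.1 hw'
      exact hu u (hZ (hD.2.1.1 u h1)) u' (hZ (hD.2.1.1 u' h2))
        ((hD.2.1.2 u h1 u' h2).trans_le (min_le_left _ _))
    · obtain ⟨u, h1, rfl⟩ := List.mem_map.1 hw
      rw [hπθ u (hZ (hD.2.1.1 u h1))]
      exact (hD.2.2 x hx u h1).trans_le (min_le_right _ _)
  have hTZ : ∀ {Z Z' : Set E}, Z' ⊆ X₁' → MapsTo θ Z' Z → ∀ {F : Bi k M E} {i j : ℕ},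
      F ∈ Zs π A Z k i j → T F ∈ Zs π A Z' k i j := by
    rintro Z Z' hZ hm F i j ⟨ρ, hρ, h'⟩
    obtain ⟨δ, hδ, hD⟩ := dom hZ hm ρ hρ
    exact ⟨δ, hδ, fun xs ws h1 h2 h3 => h' xs _ h1 (by rw [List.length_map, h2]) (hD xs ws h3)⟩
  have hTn : ∀ {F : Bi k M E}, NrmM F → NrmM (T F) := fun hF ws => hF (ws.map θ)
  have hBC : BC π A X₁' p (q + 1) (T F) := by
    refine ⟨hTn hF.n, ?_, ?_⟩
    · have e : dE (T F) = T (dE F) := by funext xs ws; exact hTE F xs ws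
      rw [e]
      exact hTZ subset_rfl hθ1 hF.e
    · exact hTZ subset_rfl hθ1 hF.m
  -- the new fibre primitive
  set W : Bi k M E := fun xs ws => ten c g xs ws with hW
  refine ⟨hc.smul a, T F, hBC, ⟨T Y + W, (hTn hY).add (ten_nrm hc g), ?_⟩,
    fun l => G (l.map θ), ?_⟩
  · obtain ⟨ρ, hρ, h1⟩ := hTZ (hX) hθ2 hd
    refine ⟨min r₀ ρ, lt_min hr₀ hρ, fun xs ws h2 h3 h4 => ?_⟩
    have e1 : F xs (ws.map θ) - ten c v xs (ws.map θ) - dE Y xs (ws.map θ) = 0 :=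
      h1 xs ws h2 h3 (h4.mono subset_rfl (min_le_right _ _))
    rcases xs with _ | ⟨x, xs⟩
    · simp at h2
    have e2 := hg x ws (by omega)
      ((h4.mono subset_rfl (min_le_left _ _)).sub (by simp) fun _ h => h)
    have e3 : dE W (x :: xs) ws = c (x :: xs) * dl (g x) ws := dE_ten_cons c g x xs ws
    rw [map_add]
    show T F (x :: xs) ws - a * c (x :: xs) * v' x ws -
      (dE (T Y) (x :: xs) ws + dE W (x :: xs) ws) = 0
    rw [hTE, e3, ← e2]
    rw [ten_cons] at e1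
    show F (x :: xs) (ws.map θ) - a * c (x :: xs) * v' x ws -
      (dE Y (x :: xs) (ws.map θ) + c (x :: xs) * (v x (ws.map θ) - a * v' x ws)) = 0
    linear_combination e1
  · obtain ⟨δ, hδ, hu⟩ := huc r hr
    refine ⟨δ, hδ, fun l hl hs => ?_⟩
    have e1 := h (l.map θ) (by rw [List.length_map, hl]) ⟨fun w hw => ?_, fun w hw w' hw' => ?_⟩
    · show z (l.map θ) = _
      rw [e1, ← Sl.dl_map]
      congr 2
      show F (((l.map θ).take (p + 1)).map π) ((l.map θ).drop p) =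
        F ((l.take (p + 1)).map π) ((l.drop p).map θ)
      rw [← List.map_take, ← List.map_drop, List.map_map]
      congr 1
      refine List.map_congr_left fun w hw => ?_
      exact hπθ w (hs.1 w (List.mem_of_mem_take hw)).1
    · obtain ⟨u, h1, rfl⟩ := List.mem_map.1 hw
      refine ⟨hθ1 (hs.1 u h1).1, ?_⟩
      show π (θ u) ∈ A
      rw [hπθ u (hs.1 u h1).1]
      exact (hs.1 u h1).2
    · obtain ⟨u, h1, rfl⟩ := List.mem_map.1 hw
      obtain ⟨u', h2, rfl⟩ := List.mem_map.1 hw'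
      exact hu u (hs.1 u h1).1 u' (hs.1 u' h2).1 (hs.2 u h1 u' h2)

/-- `H^p(A)` has rank at most one. -/
def RkA (k : Type) [Field k] (A : Set M) (p : ℕ) : Prop :=
  ∀ c c' : List M → k, Nrm c → CocL A p c → Nrm c' → CocL A p c' →
    ∃ a b : k, ¬ (a = 0 ∧ b = 0) ∧ ExL A p fun l => a * c l + b * c' l

/-- **(U2)** -/
theorem leray_rk (hR : Red π A X X₁ 0 m p (q + 1) ε) (hm : p + (q + 1) = m)
    (L : LineB π A X₁ X₂ (q + 1) v) (hπ : ∀ w w', dist (π w) (π w') ≤ dist w w')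
    (hX : X₂ ⊆ X₁) (hX' : X₃ ⊆ X₂) (hK : Kill π A X₂ X₃ k (p + 1) q) (hA : RkA k A p)
    {z z' : List E → k} (hz : CocA π A X m z) (hz' : CocA π A X m z') :
    ∃ a b : k, ¬ (a = 0 ∧ b = 0) ∧ ExL (X₃ ∩ π ⁻¹' A) m fun l => a * z l + b * z' l := by
  obtain ⟨c, hc⟩ := exists_coef hR hm L hz
  obtain ⟨c', hc'⟩ := exists_coef hR hm L hz'
  obtain ⟨a, b, hab, he⟩ := hA c c' hc.1 (hc.coc L hX) hc'.1 (hc'.coc L hX)
  refine ⟨a, b, hab, ?_⟩
  have e := ((hc.smul a).add (hc'.smul b)).zero L hπ hX hX' hK he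
  have e1 : p + q + 1 = m := by omega
  rwa [e1] at e

end Vale.Agent.P216.E2L
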