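import Vale.Agent.P216.E2L.Dbl

/-!
# The slots of the Leray zigzag

* `BC p q F`: `F` is a normalised bicocycle of bidegree `(p, q)` on the small double lists;
* `NullB q`: the fibre cohomology of degree `q` dies (uniformly in the base list);
* `Slot p q`: a bicocycle of bidegree `(p, q + 1)` can be replaced by one of bidegree `(p + 1, q)`;
* `Kill p q`: `aw` of a bicocycle of bidegree `(p, q)` is exact.
-/

set_option linter.all false

open Set

namespace Vale.Agent.P216.E2L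

open Sl PS

variable {k : Type} [Field k] {M E : Type} [PseudoMetricSpace M] [PseudoMetricSpace E]

theorem nrm_prim {Z : Type} [PseudoMetricSpace Z] {X : Set Z} {d : ℕ} {f : List Z → k}
    (hN : Nrm f) (hc : CocL X d f) (he : ExL X d f) : ∃ g : List Z → k, Nrm g ∧
      (d = 0 → ∀ l, g l = 0) ∧ ∃ ε > 0, ∀ l, l.length = d + 1 → SmL X ε l → f l = dl g l := by
  obtain ⟨g, hg0, ε₁, hε₁, hg⟩ := he
  obtain ⟨ε₂, hε₂, hf⟩ := hc
  rcases Nat.eq_zero_or_pos d with rfl | hd
  · refine ⟨fun _ => 0, fun _ _ => rfl, fun _ _ => rfl, ε₁, hε₁, fun l hl hs => ?_⟩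
    rw [hg l hl hs, show g = fun _ => 0 from funext (hg0 rfl)]
  · refine ⟨fun l => nrm g l - hmt f l, (nrm_Nrm g).sub hN.hmt, fun h => absurd h hd.ne',
      min ε₁ ε₂, lt_min hε₁ hε₂, fun l hl hs => ?_⟩
    have hs1 := hs.mono (Subset.refl X) (min_le_left ε₁ ε₂)
    have hs2 := hs.mono (Subset.refl X) (min_le_right ε₁ ε₂)
    have e1 : hmt (dl f) l = 0 := hmt_eq_zero fun l' h1 h2 =>
      hf l' (by omega) (SmL.sub' hs2 h2)
    have e2 : nrm f l = nrm (dl g) l := nrm_congr fun l' h1 h2 =>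
      hg l' (by omega) (SmL.sub' hs1 h2)
    have e3 := nrm_sub f l
    rw [dl_sub, dl_nrm, ← e2]
    rw [e1] at e3
    linear_combination -e3

section

variable (π : E → M) (A : Set M) (X X' : Set E)

/-- Normalised bicocycles of bidegree `(p, q)`. -/
structure BC (p q : ℕ) (F : Bi k M E) : Prop where
  n : NrmM F
  e : dE F ∈ Zs π A X k (p + 1) (q + 2)
  m : dM F ∈ Zs π A X k (p + 2) (q + 1)

/-- The fibre cohomology of degree `q` dies between `X` and `X'` (modulo constants if `q = 0`). -/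
def NullB (k : Type) [Field k] (q : ℕ) : Prop :=
  ∀ r > 0, ∃ r' > 0, ∀ (x : M) (xs : List M), SmL A r' (x :: xs) → ∀ f : List E → k,
    (∀ ws, ws.length = q + 2 → Dom π A X r (x :: xs) ws → dl f ws = 0) →
      ∃ g : List E → k, ∀ ws, ws.length = q + 1 → Dom π A X' r' (x :: xs) ws → f ws = dl g ws

/-- Vanishing on vertical lists. -/
def VV (p : ℕ) (G : List E → k) : Prop :=
  2 ≤ p → ∀ l : List E, 2 ≤ l.length → (∀ w ∈ l, ∀ w' ∈ l, π w = π w') → G l = 0

/-- Bicocycles of bidegree `(p, q + 1)` can be pushed to `(p + 1, q)`. -/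
def Slot (k : Type) [Field k] (p q : ℕ) : Prop :=
  ∀ F : Bi k M E, BC π A X p (q + 1) F → ∃ F', BC π A X' (p + 1) q F' ∧
    ∃ G : List E → k, VV π p G ∧ ∃ r > 0, ∀ l, l.length = p + q + 2 →
      SmL (X' ∩ π ⁻¹' A) r l → aw π p F l = dl G l - (-1 : k) ^ p * aw π (p + 1) F' l

/-- The classes of the bicocycles of bidegree `(p, q)` die. -/
def Kill (k : Type) [Field k] (p q : ℕ) : Prop :=
  ∀ F : Bi k M E, BC π A X p q F → ∃ G : List E → k, VV π p G ∧ (p + q = 0 → ∀ l, G l = 0) ∧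
    ∃ r > 0, ∀ l, l.length = p + q + 1 → SmL (X' ∩ π ⁻¹' A) r l → aw π p F l = dl G l

end

variable {π : E → M} {A : Set M} {X X' X'' : Set E} {p q : ℕ}

theorem BC.mono {F : Bi k M E} (h : BC π A X p q F) (hX : X' ⊆ X) : BC π A X' p q F :=
  ⟨h.n, Zs_mono hX h.e, Zs_mono hX h.m⟩

theorem BC.add {F G : Bi k M E} (h : BC π A X p q F) (h' : BC π A X p q G) :
    BC π A X p q (F + G) :=
  ⟨h.n.add h'.n, by rw [map_add]; exact add_mem h.e h'.e, by rw [map_add]; exact add_mem h.m h'.m⟩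

theorem BC.smul {F : Bi k M E} (a : k) (h : BC π A X p q F) : BC π A X p q (a • F) :=
  ⟨h.n.smul a, by rw [map_smul]; exact Submodule.smul_mem _ _ h.e,
    by rw [map_smul]; exact Submodule.smul_mem _ _ h.m⟩

theorem NullB.mono (h : NullB π A X X' k q) (hX : X'' ⊆ X') : NullB π A X X'' k q := by
  intro r hr
  obtain ⟨r', hr', h⟩ := h r hr
  refine ⟨r', hr', fun x xs hx f hf => ?_⟩
  obtain ⟨g, hg⟩ := h x xs hx f hf
  exact ⟨g, fun ws h1 h2 => hg ws h1 (h2.mono hX le_rfl)⟩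

theorem NullB.mono' (h : NullB π A X X' k q) (hX : X ⊆ X'') : NullB π A X'' X' k q := by
  intro r hr
  obtain ⟨r', hr', h⟩ := h r hr
  exact ⟨r', hr', fun x xs hx f hf => h x xs hx f fun ws h1 h2 => hf ws h1 (h2.mono hX le_rfl)⟩

/-- The pointwise choice of a fibre primitive. -/
theorem exists_Y (hN : NullB π A X X' k q) {F : Bi k M E} (hF : NrmM F)
    (he : dE F ∈ Zs π A X k (p + 1) (q + 2)) :
    ∃ Y : Bi k M E, NrmM Y ∧ F - dE Y ∈ Zs π A X' k (p + 1) (q + 1) := by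
  obtain ⟨r, hr, h⟩ := he
  obtain ⟨r', hr', h'⟩ := hN r hr
  have key : ∀ xs : List M, ∃ g : List E → k, (¬ xs.IsChain (· ≠ ·) → g = 0) ∧
      (xs.length = p + 1 → xs.IsChain (· ≠ ·) → SmL A r' xs → ∀ ws, ws.length = q + 1 →
        Dom π A X' r' xs ws → F xs ws = dl g ws) := by
    intro xs
    by_cases hc : xs.IsChain (· ≠ ·)
    · by_cases hs : SmL A r' xs ∧ xs.length = p + 1
      · obtain ⟨hs, hl⟩ := hs
        rcases xs with _ | ⟨x, xs⟩
        · simp at hl
        obtain ⟨g, hg⟩ := h' x xs hs (F (x :: xs)) fun ws h1 h2 => h (x :: xs) ws hl h1 h2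
        exact ⟨g, fun h => absurd hc h, fun _ _ _ => hg⟩
      · exact ⟨0, fun _ => rfl, fun h1 _ h2 => absurd ⟨h2, h1⟩ hs⟩
    · exact ⟨0, fun _ => rfl, fun _ h => absurd h hc⟩
  choose Y hY1 hY2 using key
  refine ⟨Y, fun ws xs hx => ?_, r', hr', fun xs ws h1 h2 h3 => ?_⟩
  · show Y xs ws = 0
    rw [hY1 xs hx]
    rfl
  · show F xs ws - dl (Y xs) ws = 0
    by_cases hc : xs.IsChain (· ≠ ·)
    · rw [hY2 xs h1 hc h3.1 ws h2 h3, sub_self]
    · have e1 : F xs ws = 0 := hF ws xs hc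
      have e2 : dl (Y xs) ws = 0 := by
        rw [hY1 xs hc]
        exact dl_zero_fun _
      rw [e1, e2, sub_zero]

/-- If `F ≡ dE Y`, then `dM Y` is the next bicocycle. -/
theorem BC.next {F Y : Bi k M E} (h : BC π A X p (q + 1) F) (hX : X' ⊆ X) (hY : NrmM Y)
    (hd : F - dE Y ∈ Zs π A X' k (p + 1) (q + 2)) : BC π A X' (p + 1) q (dM Y) := by
  refine ⟨hY.dM, ?_, ?_⟩
  · rw [← dM_dE]
    have h1 := dM_mem hd
    rw [map_sub] at h1
    have h2 := sub_mem (Zs_mono hX h.m) h1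
    rwa [sub_sub_cancel] at h2
  · rw [dM_dM]
    exact zero_mem _

/-- The Alexander-Whitney image of `F ≡ dE Y`. -/
theorem aw_step (hπ : ∀ w w', dist (π w) (π w') ≤ dist w w') {F Y : Bi k M E}
    (hd : F - dE Y ∈ Zs π A X' k (p + 1) (q + 2)) : ∃ r > 0, ∀ l, l.length = p + q + 2 →
      SmL (X' ∩ π ⁻¹' A) r l →
        aw π p F l = dl (fun l => (-1 : k) ^ p * aw π p Y l) l -
          (-1 : k) ^ p * aw π (p + 1) (dM Y) l := by
  obtain ⟨r, hr, h⟩ := aw_mem (q := q + 1) hπ hd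
  refine ⟨r, hr, fun l hl hs => ?_⟩
  have h1 := h l (by omega) hs
  have h2 := dl_aw π p Y l (by omega)
  rw [map_sub] at h1
  have h3 : aw π p F l = aw π p (dE Y) l := sub_eq_zero.1 h1
  have h4 : (-1 : k) ^ p * (-1 : k) ^ p = 1 := by rw [← mul_pow]; simp
  rw [dl_mul_left, h2, h3]
  linear_combination -(aw π p (dE Y) l) * h4

theorem VV.aw {Y : Bi k M E} (hY : NrmM Y) (a : k) : VV π p fun l => a * aw π p Y l :=
  fun hp l hl hv => by
    show a * E2L.aw π p Y l = 0
    rw [hY.aw_vert π (by omega) hl hv, mul_zero]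

theorem VV.add {G G' : List E → k} (h : VV π p G) (h' : VV π p G') :
    VV π p fun l => G l + G' l :=
  fun hp l hl hv => by show G l + G' l = 0; rw [h hp l hl hv, h' hp l hl hv, add_zero]

theorem VV.smul {G : List E → k} (a : k) (h : VV π p G) : VV π p fun l => a * G l :=
  fun hp l hl hv => by show a * G l = 0; rw [h hp l hl hv, mul_zero]

theorem VV.mono {G : List E → k} {p' : ℕ} (h : VV π p' G) (hp : p ≤ p') : VV π p G :=
  fun h1 => h (h1.trans hp)

/-- **Null slots.** -/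
theorem slot_null (hπ : ∀ w w', dist (π w) (π w') ≤ dist w w') (hX : X' ⊆ X)
    (hN : NullB π A X X' k (q + 1)) : Slot π A X X' k p q := by
  intro F hF
  obtain ⟨Y, hY, hd⟩ := exists_Y hN hF.n hF.e
  exact ⟨dM Y, hF.next hX hY hd, _, VV.aw hY _, aw_step hπ hd⟩

/-- Iteration. -/
theorem Kill.succ (hX : X'' ⊆ X') (hS : Slot π A X X' k p q) (hK : Kill π A X' X'' k (p + 1) q) :
    Kill π A X X'' k p (q + 1) := by
  intro F hF
  obtain ⟨F', hF', G, hG, r, hr, h⟩ := hS F hF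
  obtain ⟨G', hG', -, r', hr', h'⟩ := hK F' hF'
  refine ⟨fun l => G l + -(-1 : k) ^ p * G' l, hG.add ((hG'.mono (Nat.le_succ p)).smul _),
    fun h => by omega, min r r', lt_min hr hr', fun l hl hs => ?_⟩
  have h1 := h l (by omega) (hs.mono (inter_subset_inter_left _ hX) (min_le_left _ _))
  have h2 := h' l (by omega) (hs.mono subset_rfl (min_le_right _ _))
  rw [Sl.dl_add, dl_mul_left, h1, h2]
  ring

/-- **The last slot.** -/
theorem kill_zero (hπ : ∀ w w', dist (π w) (π w') ≤ dist w w') (hX : X' ⊆ X)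
    (hN : NullB π A X X' k 0) (hne : ∀ x ∈ A, ∃ w ∈ X', π w = x)
    (hA : ∀ c : List M → k, Nrm c → CocL A p c → ExL A p c) : Kill π A X X' k p 0 := by
  intro F hF
  obtain ⟨Y, hY, hd⟩ := exists_Y hN hF.n hF.e
  have hcN : Nrm fun xs => Y xs [] := hY []
  have hcc : CocL A p fun xs => Y xs [] := by
    have h1 := dM_mem hd
    rw [map_sub] at h1
    have h2 := sub_mem (Zs_mono hX hF.m) h1
    rw [sub_sub_cancel, dM_dE] at h2
    obtain ⟨r, hr, h⟩ := h2
    refine ⟨r, hr, fun l hl hs => ?_⟩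
    rcases l with _ | ⟨x, l⟩
    · simp at hl
    obtain ⟨w, hw, hx⟩ := hne x (hs.1 x (by simp))
    have h3 := h (x :: l) [w] hl rfl ⟨hs, ⟨fun y hy => ?_, fun y hy z hz => ?_⟩,
      fun y hy z hz => ?_⟩
    · rw [dE_apply, dl_one] at h3
      exact h3
    · rw [List.mem_singleton.1 hy]; exact hw
    · rw [List.mem_singleton.1 hy, List.mem_singleton.1 hz, dist_self]; exact hr
    · rw [List.mem_singleton.1 hz, hx]
      exact hs.2 y hy x (by simp)
  obtain ⟨b, hbN, hb0, r, hr, hb⟩ := nrm_prim hcN hcc (hA _ hcN hcc)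
  obtain ⟨r', hr', h'⟩ := aw_mem (q := 0) hπ hd
  refine ⟨fun l => b (l.map π), fun hp l hl hv => ?_, fun h l => hb0 (by omega) _,
    min r r', lt_min hr hr', fun l hl hs => ?_⟩
  · rcases l with _ | ⟨w, _ | ⟨w', l⟩⟩
    · simp at hl
    · simp at hl
    · refine hbN _ fun hc => ?_
      rw [List.map_cons, List.map_cons, List.isChain_cons_cons] at hc
      exact hc.1 (hv w (by simp) w' (by simp))
  · have h1 := h' l (by omega) (hs.mono subset_rfl (min_le_right _ _))
    rw [map_sub] at h1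
    have h3 : aw π p F l = aw π p (dE Y) l := sub_eq_zero.1 h1
    have h4 : aw π p (dE Y) l = Y (l.map π) [] := by
      rw [aw_apply, List.take_of_length_le (by omega), dE_apply]
      obtain ⟨w, hw⟩ : ∃ w, l.drop p = [w] := List.length_eq_one_iff.1
        (by rw [List.length_drop]; omega)
      rw [hw, dl_one]
    rw [h3, h4, dl_map]
    refine hb _ (by rw [List.length_map]; omega) ⟨fun y hy => ?_, fun y hy z hz => ?_⟩
    · obtain ⟨w, hw, rfl⟩ := List.mem_map.1 hy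
      exact (hs.1 w hw).2
    · obtain ⟨w, hw, rfl⟩ := List.mem_map.1 hy
      obtain ⟨w', hw', rfl⟩ := List.mem_map.1 hz
      exact (hπ w w').trans_lt ((hs.2 w hw w' hw').trans_le (min_le_left _ _))

end Vale.Agent.P216.E2L
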